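import Vale.Agent.P271.H604.ExpSet
import Vale.Agent.P271.Zorn.Abs

/-!
# P271 / APKG : from `Zorn.Dat` on a submonoid of nonzero elements to `IsExp`
-/

namespace Vale.Agent.P271.Exp

open Finsupp

variable {R : Type*} [CommRing R] {H : Submonoid R}

/-- The exponent set on the ring `R` obtained from an exponent set on the submonoid `H`. -/
def extP (H : Submonoid R) (P : Set (H →₀ ℝ)) : Set (R →₀ ℝ) :=
  {k | (∀ f ∈ k.support, f ∈ H) ∧ k.comapDomain (fun h : H => (h : R)) Subtype.val_injective.injOn ∈ P}

/-- the allowed elements -/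
def HmOf (H : Submonoid R) (f : R) : Prop := f ∈ H ∨ f = 0

theorem mem_extP_iff {P : Set (H →₀ ℝ)} {k : R →₀ ℝ} :
    k ∈ extP H P ↔ ∃ k' : H →₀ ℝ, k' ∈ P ∧ k'.mapDomain (fun h : H => (h : R)) = k := by
  classical
  constructor
  · rintro ⟨h1, h2⟩
    refine ⟨_, h2, Finsupp.mapDomain_comapDomain _ Subtype.val_injective k ?_⟩
    intro f hf
    exact ⟨⟨f, h1 f hf⟩, rfl⟩
  · rintro ⟨k', h1, rfl⟩
    refine ⟨fun f hf => ?_, ?_⟩
    · have := Finsupp.mapDomain_support hf
      rw [Finset.mem_image] at this
      obtain ⟨v, -, rfl⟩ := this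
      exact v.2
    · have : (k'.mapDomain (fun h : H => (h : R))).comapDomain (fun h : H => (h : R))
          Subtype.val_injective.injOn = k' := by
        ext h
        rw [Finsupp.comapDomain_apply]
        exact Finsupp.mapDomain_apply Subtype.val_injective k' h
      rwa [this]

theorem mapDomain_mem_extP {P : Set (H →₀ ℝ)} {k' : H →₀ ℝ} :
    k'.mapDomain (fun h : H => (h : R)) ∈ extP H P ↔ k' ∈ P := by
  rw [mem_extP_iff]
  constructor
  · rintro ⟨k, h1, h2⟩
    rwa [← Finsupp.mapDomain_injective Subtype.val_injective h2]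
  · intro h
    exact ⟨k', h, rfl⟩

theorem isExp_ofDat (h0 : (0 : R) ∉ H) (D : Zorn.Dat H)
    (hsum : ∀ f g h : H, (h : R) = f + g → D.Sum f g h) :
    IsExp (HmOf H) (extP H D.P) := by
  classical
  set e : H → R := fun h => (h : R) with he
  have hinj : Function.Injective e := Subtype.val_injective
  have hmd : ∀ (k : H →₀ ℝ) (f : H) (t : ℝ),
      (k + single f t).mapDomain e = k.mapDomain e + single (f : R) t := by
    intro k f t
    rw [Finsupp.mapDomain_add, Finsupp.mapDomain_single]
  have hsupp : ∀ k ∈ extP H D.P, ∀ f ∈ k.support, f ∈ H := fun k hk => hk.1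
  -- lifting
  have hlift : ∀ k : R →₀ ℝ, (∀ f ∈ k.support, f ∈ H) → ∃ k' : H →₀ ℝ, k'.mapDomain e = k := by
    intro k hk
    exact ⟨_, Finsupp.mapDomain_comapDomain _ hinj k fun f hf => ⟨⟨f, hk f hf⟩, rfl⟩⟩
  have hle : ∀ k k' : H →₀ ℝ, k.mapDomain e ≤ k'.mapDomain e ↔ ∀ f, k f ≤ k' f := by
    intro k k'
    constructor
    · intro h f
      have := h (e f)
      rwa [Finsupp.mapDomain_apply hinj, Finsupp.mapDomain_apply hinj] at this
    · intro h f
      by_cases hf : f ∈ Set.range e
      · obtain ⟨g, rfl⟩ := hf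
        rw [Finsupp.mapDomain_apply hinj, Finsupp.mapDomain_apply hinj]
        exact h g
      · rw [Finsupp.mapDomain_of_notMem_range _ _ hf, Finsupp.mapDomain_of_notMem_range _ _ hf]
  have hnn : ∀ k : H →₀ ℝ, 0 ≤ k.mapDomain e ↔ ∀ f, 0 ≤ k f := by
    intro k
    have := hle 0 k
    rw [Finsupp.mapDomain_zero] at this
    exact this
  refine ⟨?_, Or.inl H.one_mem, ?_, ?_, ?_, ?_, ?_, ?_, ?_⟩
  · rw [mem_extP_iff]
    exact ⟨0, Zorn.Dat.zero_mem D, Finsupp.mapDomain_zero⟩
  · rintro f g (hf | rfl) (hg | rfl)
    · exact Or.inl (H.mul_mem hf hg)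
    · exact Or.inr (mul_zero _)
    · exact Or.inr (zero_mul _)
    · exact Or.inr (mul_zero _)
  · intro k hk f hf
    have h1 := hk.1 f hf
    exact ⟨Or.inl h1, fun h => h0 (h ▸ h1)⟩
  · intro k hk k' hk' a b ha hb hab
    rw [mem_extP_iff] at hk hk' ⊢
    obtain ⟨u, hu, rfl⟩ := hk
    obtain ⟨v, hv, rfl⟩ := hk'
    refine ⟨a • u + b • v, D.conv hu hv ha hb hab, ?_⟩
    rw [Finsupp.mapDomain_add, Finsupp.mapDomain_smul, Finsupp.mapDomain_smul]
  · intro k hk k' hs hk'
    rw [mem_extP_iff] at hk ⊢
    obtain ⟨u, hu, rfl⟩ := hk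
    obtain ⟨v, rfl⟩ := hlift k' fun f hf => by
      rcases (hs f hf).1 with h | h
      · exact h
      · exact absurd h (hs f hf).2
    exact ⟨v, D.down u hu v ((hle v u).mp hk'), rfl⟩
  · intro k f g K hf hg hf0 hg0
    have hfH : f ∈ H := hf.resolve_right hf0
    have hgH : g ∈ H := hg.resolve_right hg0
    set f' : H := ⟨f, hfH⟩ with hf'
    set g' : H := ⟨g, hgH⟩ with hg'
    constructor
    · intro h
      have hk : ∀ x ∈ k.support, x ∈ H := by
        intro x hx
        by_cases hxe : x = f * g
        · rw [hxe]; exact H.mul_mem hfH hgH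
        · refine h.1 x ?_
          rw [Finsupp.mem_support_iff, Finsupp.add_apply, single_apply, if_neg (Ne.symm hxe),
            add_zero]
          exact Finsupp.mem_support_iff.mp hx
      obtain ⟨u, rfl⟩ := hlift k hk
      have h1 : u.mapDomain e + single (f * g) K = (u + single (f' * g') K).mapDomain e := by
        rw [hmd]; rfl
      rw [h1, mapDomain_mem_extP] at h
      have h2 := D.mul _ h f' g' (-K)
      have h3 : u + single (f' * g') K + single (f' * g') (-K) - single f' (-K) - single g' (-K) =
          u + single f' K + single g' K := by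
        rw [single_neg, single_neg, single_neg]; abel
      rw [h3] at h2
      have h4 : u.mapDomain e + single f K + single g K =
          (u + single f' K + single g' K).mapDomain e := by
        rw [hmd, hmd]
      rw [h4, mapDomain_mem_extP]
      exact h2
    · intro h
      have hk : ∀ x ∈ k.support, x ∈ H := by
        intro x hx
        by_cases hxf : x = f
        · rw [hxf]; exact hfH
        by_cases hxg : x = g
        · rw [hxg]; exact hgH
        · refine h.1 x ?_
          rw [Finsupp.mem_support_iff, Finsupp.add_apply, Finsupp.add_apply, single_apply,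
            single_apply, if_neg (Ne.symm hxf), if_neg (Ne.symm hxg), add_zero, add_zero]
          exact Finsupp.mem_support_iff.mp hx
      obtain ⟨u, rfl⟩ := hlift k hk
      have h4 : u.mapDomain e + single f K + single g K =
          (u + single f' K + single g' K).mapDomain e := by
        rw [hmd, hmd]
      rw [h4, mapDomain_mem_extP] at h
      have h2 := D.mul _ h f' g' K
      have h3 : u + single f' K + single g' K + single (f' * g') K - single f' K - single g' K =
          u + single (f' * g') K := by abel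
      rw [h3] at h2
      have h1 : u.mapDomain e + single (f * g) K = (u + single (f' * g') K).mapDomain e := by
        rw [hmd]; rfl
      rw [h1, mapDomain_mem_extP]
      exact h2
  · intro k f g K K' hf hg hfg hk hK' hKK' h
    have hfg' : f + g ∈ H := by
      have hne : (f + g) ∈ (k + single (f + g) K).support := by
        rw [Finsupp.mem_support_iff, Finsupp.add_apply, single_eq_same]
        have h2 : 0 ≤ k (f + g) := hk _
        linarith
      exact h.1 _ hne
    have hk' : ∀ x ∈ k.support, x ∈ H := by
      intro x hx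
      refine h.1 x ?_
      rw [Finsupp.mem_support_iff, Finsupp.add_apply]
      have h2 : 0 ≤ k x := hk x
      have h3 : k x ≠ 0 := Finsupp.mem_support_iff.mp hx
      have h4 : 0 ≤ (single (f + g) K) x := by
        rw [single_apply]; split_ifs <;> linarith
      positivity
    obtain ⟨u, rfl⟩ := hlift k hk'
    set s' : H := ⟨f + g, hfg'⟩ with hs'
    have h1 : u.mapDomain e + single (f + g) K = (u + single s' K).mapDomain e := by
      rw [hmd]
    rw [h1, mapDomain_mem_extP] at h
    have hu : ∀ x, 0 ≤ u x := (hnn u).mp hk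
    -- lowering
    have hlow : u + single s' K' ∈ D.P := by
      refine D.down _ h _ fun x => ?_
      rw [Finsupp.add_apply, Finsupp.add_apply, single_apply, single_apply]
      split_ifs <;> linarith
    rcases hf with hf | rfl
    · rcases hg with hg | rfl
      · obtain ⟨K₁, K₂, h2, h3, h4, h5⟩ := D.sum u hu ⟨f, hf⟩ ⟨g, hg⟩ s' (hsum _ _ _ rfl) K (K - K')
          (by linarith) (by linarith) h
        refine ⟨K₁, K₂, h2, h3, by linarith, ?_⟩
        have h6 : u.mapDomain e + single f K₁ + single g K₂ =
            (u + single (⟨f, hf⟩ : H) K₁ + single (⟨g, hg⟩ : H) K₂).mapDomain e := by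
          rw [hmd, hmd]
        rw [h6, mapDomain_mem_extP]
        exact h5
      · refine ⟨K', 0, hK', le_rfl, by ring, ?_⟩
        rw [single_zero, add_zero]
        have h6 : u.mapDomain e + single f K' = (u + single s' K').mapDomain e := by
          rw [hmd]; simp [hs']
        rw [h6, mapDomain_mem_extP]
        exact hlow
    · refine ⟨0, K', le_rfl, hK', by ring, ?_⟩
      rw [single_zero, add_zero]
      have h6 : u.mapDomain e + single g K' = (u + single s' K').mapDomain e := by
        rw [hmd]; simp [hs']
      rw [h6, mapDomain_mem_extP]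
      exact hlow
  · intro f hf hf0
    have hfH : f ∈ H := hf.resolve_right hf0
    obtain ⟨t, ht, htP⟩ := D.pos ⟨f, hfH⟩
    refine ⟨t, ht, ?_⟩
    have h6 : single f t = (single (⟨f, hfH⟩ : H) t).mapDomain e := by
      rw [Finsupp.mapDomain_single]
    rw [h6, mapDomain_mem_extP]
    exact htP

end Vale.Agent.P271.Exp
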