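import Vale.Agent.P271.H604.Sys
import Vale.Agent.P271.Chain.Step

/-!
# P271 / APKG : the slope functional satisfies `Chain.SlopeHyp`
-/

namespace Vale.Agent.P271.Exp

open Finsupp Module Vale.Agent.P271.Filt Vale.Agent.P271.Filt.Wt Vale.Agent.P271.Chain

section

variable {K V R : Type*} [Field K] [AddCommGroup V] [Module K V] [CommRing R] [Algebra K R]
  [FiniteDimensional K V] {Hm : R → Prop} {P : Set (R →₀ ℝ)} {j : V →ₗ[K] R}

/-- The slope of a filtration with weights zero outside `Hz` is at most the total weight. -/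
theorem vsl_T (hP : IsExp Hm P) (hj : Function.Injective j)
    (hK : ∀ c : K, Hm (algebraMap K R c)) (hV : ∀ v, Hm (j v)) {Hz : Submodule K V}
    (hnon : ∀ v ∈ Hz, v ≠ 0 → ∀ κ : ℝ, single (j v) κ ∈ P → κ < 1) {F : Wt K V}
    (hF : Dom Hz F) : VSl P j F.w F.T := by
  classical
  obtain ⟨b, hb, -⟩ := F.exists_adapted₂ F
  refine vsl_of_basis hP hj hK hV hF.nonneg hb ?_
  intro κ hκ hm
  rw [← hb.sum_eq]
  refine Finset.sum_le_sum fun i _ => ?_
  by_cases hi : b i ∈ Hz
  · have h1 : single (j (b i)) (κ i) ∈ P := by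
      refine hP.down_nonneg hm (single_nonneg' (hκ i)) ?_
      exact Finset.single_le_sum (f := fun i => single (j (b i)) (κ i))
        (fun i _ => single_nonneg' (hκ i)) (Finset.mem_univ i)
    have h2 := hnon _ hi (b.ne_zero i) _ h1
    have h3 := hF.nonneg _ (b.ne_zero i)
    nlinarith
  · rw [hF.zero _ hi, mul_zero]

/-- **The slope functional satisfies the hypotheses of the chain construction.** -/
theorem slopeHyp (hP : IsExp Hm P) (hj : Function.Injective j)
    (hK : ∀ c : K, Hm (algebraMap K R c)) (hV : ∀ v, Hm (j v)) {Hz : Submodule K V}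
    (hnon : ∀ v ∈ Hz, v ≠ 0 → ∀ κ : ℝ, single (j v) κ ∈ P → κ < 1)
    {t : ℝ} (ht : 0 < t) (hpos : ∀ v, v ≠ 0 → single (j v) t ∈ P) :
    SlopeHyp Hz (fun F : Wt K V => vslope P j F.w) (t / (finrank K V + 1)) := by
  classical
  have hvs : ∀ F : Wt K V, Dom Hz F → VSl P j F.w (vslope P j F.w) := fun F hF =>
    (vsl_T hP hj hK hV hnon hF).vslope
  refine ⟨by positivity, ?_, ?_, ?_, ?_⟩
  · intro F hF
    obtain ⟨b, hb, -⟩ := F.exists_adapted₂ F
    have h0 : 0 ≤ vslope P j F.w := (hvs F hF).nonneg hP.zero_mem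
    have h1 : ∀ i, t * F.w (b i) ≤ vslope P j F.w := by
      intro i
      have h2 := hvs F hF (single (b i) t) (single_nonneg' ht.le)
        (by rw [Finsupp.mapDomain_single]; exact hpos _ (b.ne_zero i))
      rwa [dot_single] at h2
    have h3 : t * F.T ≤ finrank K V * vslope P j F.w := by
      rw [← hb.sum_eq, Finset.mul_sum]
      refine (Finset.sum_le_sum fun i _ => h1 i).trans ?_
      rw [Finset.sum_const, Finset.card_univ, Fintype.card_fin, nsmul_eq_mul]
    have h4 : (0 : ℝ) < finrank K V + 1 := by positivity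
    rw [div_mul_eq_mul_div, div_le_iff₀ h4]
    nlinarith
  · intro F G hF hG hle
    exact ((hvs G hG).mono hP hj hle).vslope_le hP.zero_mem
  · intro F s hF hs
    have h1 : ∀ x, x ≠ 0 → (scale s F).w x = s * F.w x := fun x _ => scale_w hs F x
    apply le_antisymm
    · exact (((hvs F hF).smul hs).mono hP hj fun x hx => (h1 x hx).le).vslope_le hP.zero_mem
    · have h2 := hvs _ (hF.scale hs)
      rcases hs.eq_or_lt with h | h
      · have h5 := h2.nonneg hP.zero_mem
        rw [← h] at h5 ⊢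
        rw [zero_mul]
        exact h5
      · have h3 := (h2.smul (inv_nonneg.mpr hs)).mono (w := F.w) hP hj fun x _ => by
          rw [scale_w hs, ← mul_assoc, inv_mul_cancel₀ h.ne', one_mul]
        have h4 := h3.vslope_le hP.zero_mem
        rwa [← div_eq_inv_mul, le_div_iff₀ h, mul_comm] at h4
  · intro F G hF hG
    have h1 := VSl.joint hP hj hK hV hF.nonneg hG.nonneg zero_le_one (hvs F hF) (hvs G hG)
    rw [one_mul] at h1
    exact h1.vslope_le hP.zero_mem

end

namespace ExpSys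

variable {R : Type*} [CommRing R] [Algebra ℂ R] {Hm : R → Prop} {X : Type*} [TopologicalSpace X]
  (E : ExpSys R Hm X) {V : Submodule ℂ R} [FiniteDimensional ℂ V]

omit [FiniteDimensional ℂ V] in
theorem nonint_V (hV : ∀ v ∈ V, Hm v) (x : X) :
    ∀ v ∈ E.Hz x V, v ≠ 0 → ∀ κ : ℝ, single (V.subtype v) κ ∈ E.P x → κ < 1 :=
  fun v hv _ κ h => E.nonint x _ κ (hV _ v.2) (E.mem_Hz.mp hv) h

/-- The slope functional of a point satisfies `SlopeHyp`. -/
theorem slopeHyp (hV : ∀ v ∈ V, Hm v) (x : X) {t : ℝ} (ht : 0 < t)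
    (hpos : ∀ v : V, v ≠ 0 → single (v : R) t ∈ E.P x) :
    SlopeHyp (E.Hz x V) (E.a x V) (t / (finrank ℂ V + 1)) :=
  Exp.slopeHyp (E.isExp x) Subtype.val_injective E.hm_algebraMap (fun v => hV _ v.2)
    (E.nonint_V hV x) ht hpos

theorem exists_slopeHyp (hV : ∀ v ∈ V, Hm v) (x : X) :
    ∃ c0 : ℝ, SlopeHyp (E.Hz x V) (E.a x V) c0 := by
  obtain ⟨t, ht, hpos⟩ := E.exists_uniform_pos hV x
  exact ⟨_, E.slopeHyp hV x ht hpos⟩

/-- On the domain, the slope is `≤ c` iff all pairings are. -/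
theorem a_le_iff (hV : ∀ v ∈ V, Hm v) {x : X} {F : Wt ℂ V} (hF : Dom (E.Hz x V) F) {c : ℝ} :
    E.a x V F ≤ c ↔ VSl (E.P x) V.subtype F.w c := by
  constructor
  · intro h
    exact ((vsl_T (E.isExp x) Subtype.val_injective E.hm_algebraMap (fun v => hV _ v.2)
      (E.nonint_V hV x) hF).vslope).mono_right h
  · intro h
    exact h.vslope_le (E.isExp x).zero_mem

end ExpSys

end Vale.Agent.P271.Exp
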