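import Vale.Agent.P271.H604.Sys
import Vale.Agent.P271.H84.HVal

/-!
# P271 / APKG : the upper bound of (K3) in the language of exponent sets

At a point `x'` at which the valuation `w` has threshold `≤ c`, the refinement of `α w` by the
orders with respect to `d` functions vanishing at `x'` has threshold `≤ α c + d`.
-/

namespace Vale.Agent.P271.Exp

open Finsupp Module Filter Topology Vale.Agent.P271.Filt Vale.Agent.P271.Filt.Wt
  Vale.Agent.P271.H84

section near

variable {K V R : Type*} [Field K] [AddCommGroup V] [Module K V] [CommRing R] [Algebra K R]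
  {Hm : R → Prop} {P : Set (R →₀ ℝ)} {j : V →ₗ[K] R}

/-- **[S4]** The slope is the supremum over the exponents supported on an adapted basis. -/
theorem exists_lt_basis (hP : IsExp Hm P) (hj : Function.Injective j)
    (hK : ∀ c : K, Hm (algebraMap K R c)) (hV : ∀ v, Hm (j v)) {F : Wt K V}
    (hF : ∀ x, x ≠ 0 → 0 ≤ F.w x) {ι : Type*} [Fintype ι] {b : Basis ι K V} (hb : F.Adapted b)
    {c : ℝ} (hc : ¬ VSl P j F.w c) :
    ∃ κ : ι → ℝ, (∀ i, 0 ≤ κ i) ∧ ∑ i, single (j (b i)) (κ i) ∈ P ∧ c < ∑ i, κ i * F.w (b i) := by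
  by_contra hcon
  push Not at hcon
  exact hc (vsl_of_basis hP hj hK hV hF hb fun κ h0 hm => hcon κ h0 hm)

end near

section graded

variable {K R : Type*} [Field K] [CommRing R] [Algebra K R] (𝒜 : ℕ → Submodule K R)
  [GradedAlgebra 𝒜] {Hm : R → Prop} {P : Set (R →₀ ℝ)}

/-- The ideal of all elements whose homogeneous components can be replaced with value `r`. -/
def RI (hP : IsExp Hm P) (hHm : ∀ i, ∀ f ∈ 𝒜 i, Hm f) (G : R → Prop) (w : R → ℝ) (r : ℝ) :
    Ideal R where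
  carrier := {f | ∀ d, Repl P G w (cp 𝒜 f d) r}
  zero_mem' := by
    intro d
    have : cp 𝒜 (0 : R) d = 0 := by
      unfold cp; rw [DirectSum.decompose_zero]; rfl
    rw [this]
    exact Repl.zero hP
  add_mem' := by
    intro f g hf hg d
    rw [cp_add]
    exact Repl.add hP (hHm d _ (cp_mem 𝒜 f d)) (hHm d _ (cp_mem 𝒜 g d)) (hf d) (hg d)
  smul_mem' := by
    intro a f hf d
    rw [smul_eq_mul, cp_mul]
    refine Repl.sum hP (N := (𝒜 d).toAddSubmonoid) (fun x hx => hHm d x hx) _ _ ?_ ?_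
    · rintro ⟨i, j⟩ hij
      rw [Finset.mem_filter] at hij
      have := SetLike.GradedMul.mul_mem (cp_mem 𝒜 a i) (cp_mem 𝒜 f j)
      rw [hij.2] at this
      exact this
    · rintro ⟨i, j⟩ _
      exact Repl.mul_left hP (hHm j _ (cp_mem 𝒜 f j)) (hf j) (hHm i _ (cp_mem 𝒜 a i))

variable {𝒜}
variable {hP : IsExp Hm P} {hHm : ∀ i, ∀ f ∈ 𝒜 i, Hm f} {G : R → Prop} {w : R → ℝ} {r s : ℝ}

theorem mem_RI {f : R} : f ∈ RI 𝒜 hP hHm G w r ↔ ∀ d, Repl P G w (cp 𝒜 f d) r := Iff.rfl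

theorem mem_RI_hom {d : ℕ} {f : R} (hf : f ∈ 𝒜 d) :
    f ∈ RI 𝒜 hP hHm G w r ↔ Repl P G w f r := by
  rw [mem_RI]
  constructor
  · intro h
    have := h d
    rwa [cp_same 𝒜 hf] at this
  · intro h e
    by_cases hde : d = e
    · subst hde
      rwa [cp_same 𝒜 hf]
    · rw [cp_ne 𝒜 hf hde]
      exact Repl.zero hP

theorem RI_antitone (h : r ≤ s) : RI 𝒜 hP hHm G w s ≤ RI 𝒜 hP hHm G w r :=
  fun _ hf d => (hf d).mono h

theorem RI_mul : RI 𝒜 hP hHm G w r * RI 𝒜 hP hHm G w s ≤ RI 𝒜 hP hHm G w (r + s) := by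
  rw [Ideal.mul_le]
  intro f hf g hg d
  rw [cp_mul]
  refine Repl.sum hP (N := (𝒜 d).toAddSubmonoid) (fun x hx => hHm d x hx) _ _ ?_ ?_
  · rintro ⟨i, j⟩ hij
    rw [Finset.mem_filter] at hij
    have := SetLike.GradedMul.mul_mem (cp_mem 𝒜 f i) (cp_mem 𝒜 g j)
    rw [hij.2] at this
    exact this
  · rintro ⟨i, j⟩ _
    exact Repl.mul hP (hHm i _ (cp_mem 𝒜 f i)) (hHm j _ (cp_mem 𝒜 g j)) (hf i) (hg j)

theorem RI_zero : RI 𝒜 hP hHm G w 0 = ⊤ := by
  rw [eq_top_iff]
  intro f _ d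
  exact Repl.of_nonpos hP le_rfl

theorem RI_pow {J : Ideal R} (hJ : J ≤ RI 𝒜 hP hHm G w r) (n : ℕ) :
    J ^ n ≤ RI 𝒜 hP hHm G w (n * r) := by
  induction n with
  | zero => rw [Nat.cast_zero, zero_mul, RI_zero]; exact le_top
  | succ n ih =>
    rw [pow_succ]
    refine (Ideal.mul_mono ih hJ).trans (RI_mul.trans (le_of_eq ?_))
    congr 1
    push_cast
    ring

/-- Removing a factor that does not vanish at the point. -/
theorem RI_of_mul {u f : R} {d : ℕ} (hf : f ∈ 𝒜 d)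
    (hunit : ∃ i, cp 𝒜 u i ≠ 0 ∧ IsUnitAt P (cp 𝒜 u i)) (h : u * f ∈ RI 𝒜 hP hHm G w r) :
    Repl P G w f r := by
  classical
  obtain ⟨i, hi0, hi⟩ := hunit
  have h1 : cp 𝒜 (u * f) (i + d) = cp 𝒜 u i * f := by
    unfold cp
    rw [DirectSum.coe_decompose_mul_add_of_right_mem 𝒜 hf]
  have h2 := h (i + d)
  rw [h1] at h2
  exact Repl.of_unit_mul hP (hHm i _ (cp_mem 𝒜 u i)) hi0 hi h2

end graded

namespace ExpSys

variable {R : Type*} [CommRing R] [Algebra ℂ R] {Hm : R → Prop} {X : Type*} [TopologicalSpace X]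
  (E : ExpSys R Hm X)

open Classical in
/-- the weight `α w + [f is one of the x_j]` -/
noncomputable def wα {d : ℕ} (w : R → ℝ) (α : ℝ) (x : Fin d → R) (f : R) : ℝ :=
  α * w f + if f ∈ Set.range x then 1 else 0

/-- The threshold of `wα` at a point where the `x_j` vanish. -/
theorem slopeLe_wα {x' : X} {w : R → ℝ} {c : ℝ} (hc : SlopeLe (E.P x') Hm w c) {d : ℕ}
    {x : Fin d → R} (hx : ∀ j, E.ev x' (x j) = 0) {α : ℝ} (hα : 0 ≤ α) :
    SlopeLe (E.P x') Hm (wα w α x) (α * c + d) := by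
  classical
  intro k hk h0 hH
  have h1 : dot k (wα w α x) = α * dot k w + dot k (fun f => if f ∈ Set.range x then 1 else 0) := by
    unfold wα
    rw [dot_add_right, dot_smul_right]
  have h2 : dot k (fun f => if f ∈ Set.range x then (1 : ℝ) else 0) ≤ d := by
    unfold dot Finsupp.sum
    have h3 : ∀ f ∈ k.support, k f * (if f ∈ Set.range x then (1 : ℝ) else 0) ≤
        if f ∈ Set.range x then 1 else 0 := by
      intro f hf
      split_ifs with hfx
      · obtain ⟨j, rfl⟩ := hfx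
        rw [mul_one]
        refine (E.nonint x' _ _ (hH _ hf) (hx j) ?_).le
        refine (E.isExp x').down_nonneg hk (single_nonneg' (h0 _)) fun g => ?_
        rw [single_apply]
        split_ifs with hg
        · rw [hg]
        · exact h0 g
      · rw [mul_zero]
    refine (Finset.sum_le_sum h3).trans ?_
    rw [Finset.sum_ite, Finset.sum_const_zero, add_zero, Finset.sum_const, nsmul_eq_mul, mul_one]
    have h4 : (k.support.filter fun f => f ∈ Set.range x) ⊆ Finset.univ.image x := by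
      intro f hf
      obtain ⟨j, rfl⟩ := (Finset.mem_filter.mp hf).2
      exact Finset.mem_image_of_mem _ (Finset.mem_univ j)
    have h5 := (Finset.card_le_card h4).trans Finset.card_image_le
    rw [Finset.card_univ, Fintype.card_fin] at h5
    exact_mod_cast h5
  rw [h1]
  exact add_le_add (mul_le_mul_of_nonneg_left (hc k hk h0 hH) hα) h2

variable {𝒜 : ℕ → Submodule ℂ R} [GradedAlgebra 𝒜]

/-- **(K3), upper bound at the point `x'`.** `w` is a weight function of threshold `≤ c` at `x'`,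
`x_j` homogeneous elements vanishing at `x'`, `b` a basis of `V ≤ 𝒜 m`, and
`u_i * b_i ∈ (x)^{e_i} * B_i + B'_i` with `w ≥ lam_i` on (the components of the elements of) `B_i`,
`w ≥ lam_i + e_i / α` on `B'_i` and `u_i` not vanishing at `x'`. -/
theorem upper (hHm : ∀ i, ∀ f ∈ 𝒜 i, Hm f) {x' : X} {w : R → ℝ}
    (hw : ∀ f, Hm f → f ≠ 0 → 0 ≤ w f) {c : ℝ} (hc : SlopeLe (E.P x') Hm w c) {d : ℕ}
    {x : Fin d → R} (hxH : ∀ j, ∃ i, x j ∈ 𝒜 i) (hx : ∀ j, E.ev x' (x j) = 0) {α : ℝ}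
    (hα : 0 ≤ α) {V : Submodule ℂ R} {m : ℕ} (hVm : V ≤ 𝒜 m) {ι : Type*} [Fintype ι]
    (b : Basis ι ℂ V) (lam : ι → ℝ) (hlam : ∀ i, 0 ≤ lam i) (e : ι → ℕ)
    (B B' : ι → Ideal R) (hB : ∀ i, ∀ f ∈ B i, ∀ D, cp 𝒜 f D ≠ 0 → lam i ≤ w (cp 𝒜 f D))
    (hB' : ∀ i, ∀ f ∈ B' i, ∀ D, cp 𝒜 f D ≠ 0 → α * lam i + e i ≤ α * w (cp 𝒜 f D))
    (h : ∀ i, ∃ u : R, E.ev x' u ≠ 0 ∧
      u * (b i : R) ∈ (Ideal.span (Set.range x)) ^ e i * B i ⊔ B' i) :
    VSl (E.P x') V.subtype (ofBasis b (fun i => α * lam i + e i)).w (α * c + d) := by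
  classical
  have hHV : ∀ v : V, Hm v := fun v => hHm m _ (hVm v.2)
  have hP := E.isExp x'
  have hG := E.slopeLe_wα hc hx hα
  -- values of generators
  have hgen : ∀ f, Hm f → f ≠ 0 → Repl (E.P x') Hm (wα w α x) f (wα w α x f) := by
    intro f hf hf0
    refine Repl.of_gen hf ?_
    unfold wα
    have := mul_nonneg hα (hw f hf hf0)
    split_ifs <;> linarith
  have hle : ∀ f, α * w f ≤ wα w α x f := by
    intro f
    unfold wα
    split_ifs <;> linarith
  have hxR : Ideal.span (Set.range x) ≤ RI 𝒜 hP hHm Hm (wα w α x) 1 := by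
    rw [Ideal.span_le]
    rintro _ ⟨j, rfl⟩
    obtain ⟨i, hi⟩ := hxH j
    rw [SetLike.mem_coe, mem_RI_hom hi]
    by_cases h0 : x j = 0
    · rw [h0]; exact Repl.zero hP
    · refine (hgen _ (hHm i _ hi) h0).mono ?_
      unfold wα
      rw [if_pos ⟨j, rfl⟩]
      have := mul_nonneg hα (hw _ (hHm i _ hi) h0)
      linarith
  have hBR : ∀ i, B i ≤ RI 𝒜 hP hHm Hm (wα w α x) (α * lam i) := by
    intro i f hf D
    by_cases h0 : cp 𝒜 f D = 0
    · rw [h0]; exact Repl.zero hP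
    · refine (hgen _ (hHm D _ (cp_mem 𝒜 f D)) h0).mono ((mul_le_mul_of_nonneg_left ?_ hα).trans
        (hle _))
      exact hB i f hf D h0
  have hBR' : ∀ i, B' i ≤ RI 𝒜 hP hHm Hm (wα w α x) (α * lam i + e i) := by
    intro i f hf D
    by_cases h0 : cp 𝒜 f D = 0
    · rw [h0]; exact Repl.zero hP
    · exact (hgen _ (hHm D _ (cp_mem 𝒜 f D)) h0).mono ((hB' i f hf D h0).trans (hle _))
  have hrepl : ∀ i, Repl (E.P x') Hm (wα w α x) (b i : R) (α * lam i + e i) := by
    intro i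
    obtain ⟨u, hu, hmem⟩ := h i
    refine RI_of_mul (hP := hP) (hHm := hHm) (u := u) (hVm (b i).2) ?_ ?_
    · by_contra hcon
      push Not at hcon
      apply hu
      rw [← sum_cp 𝒜 u, map_sum]
      refine Finset.sum_eq_zero fun i _ => ?_
      by_contra hne
      have h0 : cp 𝒜 u i ≠ 0 := by intro h0; rw [h0, map_zero] at hne; exact hne rfl
      exact hcon i h0 (E.unit x' _ (hHm i _ (cp_mem 𝒜 u i)) hne)
    · refine (sup_le ?_ (hBR' i)) hmem
      refine (Ideal.mul_mono (RI_pow hxR (e i)) (hBR i)).trans (RI_mul.trans (le_of_eq ?_))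
      congr 1
      ring
  refine vsl_of_basis hP Subtype.val_injective E.hm_algebraMap hHV (F := ofBasis b _)
    (fun v hv => (le_ofBasis_iff b _ hv).mpr fun i _ => ?_) (ofBasis_adapted b _) ?_
  · have := mul_nonneg hα (hlam i)
    positivity
  intro κ hκ hm
  simp_rw [ofBasis_basis]
  -- transfer the bound
  have hinj : Function.Injective fun i => (b i : R) := Subtype.val_injective.comp b.injective
  set wt' : R → ℝ := fun f => if hf : ∃ i, (b i : R) = f then α * lam hf.choose + e hf.choose else 0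
    with hwt'
  have hwb : ∀ i, wt' (b i : R) = α * lam i + e i := by
    intro i
    have hex : ∃ i', (b i' : R) = (b i : R) := ⟨i, rfl⟩
    have h1 : hex.choose = i := hinj hex.choose_spec
    simp only [hwt', dif_pos hex, h1]
  have h2 : SlopeLe (E.P x') (fun f => f ∈ Set.range fun i => (b i : R)) wt' (α * c + d) := by
    refine SlopeLe.of_repl hP hG ?_
    rintro _ _ _ ⟨i, rfl⟩
    dsimp only
    rw [hwb]
    exact hrepl i
  have h3 := h2 _ hm (Finset.sum_nonneg fun i _ => single_nonneg' (hκ i)) (by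
    intro f hf
    by_contra hcon
    apply Finsupp.mem_support_iff.mp hf
    rw [Finsupp.finsetSum_apply]
    refine Finset.sum_eq_zero fun i _ => ?_
    rw [single_apply]
    exact if_neg fun h => hcon ⟨i, h⟩)
  rw [dot_finset_sum] at h3
  refine le_trans (le_of_eq (Finset.sum_congr rfl fun i _ => ?_)) h3
  rw [dot_single]
  congr 1
  exact (hwb i).symm

end ExpSys

end Vale.Agent.P271.Exp
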