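import Vale.Agent.P271.H604.Slope
import Vale.Agent.P271.H43.Min

/-!
# P271 / APKG : the slope functional in the form of helper43's `Slope` (route B)
-/

namespace Vale.Agent.P271.Exp

open Finsupp Module Filter Topology Vale.Agent.P271.Filt Vale.Agent.P271.Filt.Wt
  Vale.Agent.P271.Chain

namespace ExpSys

variable {R : Type*} [CommRing R] [Algebra ℂ R] {Hm : R → Prop} {X : Type*} [TopologicalSpace X]
  (E : ExpSys R Hm X) {V : Submodule ℂ R} [FiniteDimensional ℂ V]

omit [FiniteDimensional ℂ V] in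
/-- Limits of filtrations in the domain are in the domain. -/
theorem dom_limit {x : X} {ι : Type} [Fintype ι] (b : ℕ → Basis ι ℂ V) (b' : Basis ι ℂ V)
    {lam : ι → ℝ} (hdom : ∀ n, Dom (E.Hz x V) (ofBasis (b n) lam))
    (hlim : ∀ (f : V →ₗ[ℂ] ℂ) (i : ι), Tendsto (fun n => f (b n i)) atTop (𝓝 (f (b' i)))) :
    Dom (E.Hz x V) (ofBasis b' lam) := by
  have h0 : ∀ i, 0 ≤ lam i := fun i => by
    have := (hdom 0).nonneg _ ((b 0).ne_zero i)
    rwa [ofBasis_basis] at this
  have h1 : ∀ i, b' i ∉ E.Hz x V → lam i = 0 := by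
    intro i hi
    set f : V →ₗ[ℂ] ℂ := (E.ev x).toLinearMap.comp V.subtype with hf
    have hfi : f (b' i) ≠ 0 := fun h => hi (E.mem_Hz.mpr h)
    obtain ⟨n, hn⟩ := ((hlim f i).eventually_ne hfi).exists
    have h2 : b n i ∉ E.Hz x V := fun h => hn (E.mem_Hz.mp h)
    have h3 := (hdom n).zero _ h2
    rwa [ofBasis_basis] at h3
  refine ⟨fun v hv => (le_ofBasis_iff b' lam hv).mpr fun i _ => h0 i, fun v hv => ?_⟩
  have hv0 : v ≠ 0 := fun h => hv (h ▸ (E.Hz x V).zero_mem)
  obtain ⟨i, hi, hib⟩ : ∃ i, b'.repr v i ≠ 0 ∧ b' i ∉ E.Hz x V := by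
    by_contra hcon
    push Not at hcon
    apply hv
    rw [← b'.sum_repr v]
    refine Submodule.sum_mem _ fun i _ => ?_
    by_cases hi : b'.repr v i = 0
    · rw [hi, zero_smul]; exact Submodule.zero_mem _
    · exact Submodule.smul_mem _ _ (hcon i hi)
  apply le_antisymm
  · have h2 := ofBasis_adapted b' lam v i hi
    rw [ofBasis_basis, h1 i hib] at h2
    exact h2
  · exact (le_ofBasis_iff b' lam hv0).mpr fun i _ => h0 i

/-- **The slope functional of a point satisfies helper43's `Slope`.** -/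
theorem slope43 (hV : ∀ v ∈ V, Hm v) (x : X) {t : ℝ} (ht : 0 < t)
    (hpos : ∀ v : V, v ≠ 0 → single (v : R) t ∈ E.P x) :
    H43.Slope (E.Hz x V) (E.a x V) (t / (finrank ℂ V + 1)) := by
  have h := E.slopeHyp hV x ht hpos
  refine ⟨h.pos, h.low, h.mono, h.hom, h.subadd, ?_⟩
  intro b b' lam _ hdom hlim δ hδ
  have hdom' := E.dom_limit b b' hdom hlim
  by_contra hcon
  have h1 : ∀ᶠ n in atTop, E.a x V (ofBasis (b n) lam) ≤ E.a x V (ofBasis b' lam) - δ := by
    rw [Filter.not_frequently] at hcon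
    filter_upwards [hcon] with n hn
    push Not at hn
    linarith
  have h2 : VSl (E.P x) V.subtype (ofBasis b' lam).w (E.a x V (ofBasis b' lam) - δ) := by
    refine E.vsl_limit hV (fun n => ofBasis (b n) lam) b b' lam (fun i => ?_)
      (fun n => ofBasis_adapted _ _) (fun n i => ofBasis_basis _ _ i) hlim
      (x := fun _ => x) tendsto_const_nhds (h1.mono fun n hn => ?_).frequently
    · have := (hdom 0).nonneg _ ((b 0).ne_zero i)
      rwa [ofBasis_basis] at this
    · exact (E.a_le_iff hV (hdom n)).mp hn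
  have h3 := (E.a_le_iff hV hdom').mpr h2
  linarith

theorem exists_slope43 (hV : ∀ v ∈ V, Hm v) (x : X) :
    ∃ c0 : ℝ, H43.Slope (E.Hz x V) (E.a x V) c0 := by
  obtain ⟨t, ht, hpos⟩ := E.exists_uniform_pos hV x
  exact ⟨_, E.slope43 hV x ht hpos⟩

end ExpSys

end Vale.Agent.P271.Exp
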