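import Vale.Agent.P271.H604.ExpSet
import Vale.Agent.P271.Filt.Joint

/-!
# P271 / APKG : the slope functional on filtrations

`V` is a finite dimensional space of elements of `R` (injection `j : V → R`), `P` the exponent set
of a point.  `VSl P j w c` : the slope of the weight function `w : V → ℝ` is at most `c`.
-/

namespace Vale.Agent.P271.Exp

open Finsupp Module Vale.Agent.P271.Filt Vale.Agent.P271.Filt.Wt

variable {K V R : Type*} [Field K] [AddCommGroup V] [Module K V] [CommRing R] [Algebra K R]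

/-- The slope of the weight function `w` on `V` is at most `c`. -/
def VSl {V R : Type*} (P : Set (R →₀ ℝ)) (j : V → R) (w : V → ℝ) (c : ℝ) : Prop :=
  ∀ k : V →₀ ℝ, 0 ≤ k → k.mapDomain j ∈ P → dot k w ≤ c

/-- The slope of a weight function. -/
noncomputable def vslope {V R : Type*} (P : Set (R →₀ ℝ)) (j : V → R) (w : V → ℝ) : ℝ :=
  sSup {x : ℝ | ∃ k : V →₀ ℝ, 0 ≤ k ∧ k.mapDomain j ∈ P ∧ dot k w = x}

section general

variable {V R : Type*} {P : Set (R →₀ ℝ)} {j : V → R} {w w' : V → ℝ} {c c' : ℝ}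

theorem mapDomain_nonneg {k : V →₀ ℝ} (hk : 0 ≤ k) : (0 : R →₀ ℝ) ≤ k.mapDomain j := by
  classical
  unfold Finsupp.mapDomain
  exact Finset.sum_nonneg fun v _ => by
    intro f
    rw [single_apply]
    split_ifs
    · exact hk v
    · exact le_rfl

theorem VSl.nonneg (h0 : (0 : R →₀ ℝ) ∈ P) (h : VSl P j w c) : 0 ≤ c := by
  have := h 0 le_rfl (by rwa [Finsupp.mapDomain_zero])
  rwa [dot_zero] at this

theorem VSl.mono_right (h : VSl P j w c) (hc : c ≤ c') : VSl P j w c' :=
  fun k hk hm => (h k hk hm).trans hc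

theorem VSl.smul {t : ℝ} (ht : 0 ≤ t) (h : VSl P j w c) :
    VSl P j (fun v => t * w v) (t * c) := by
  intro k hk hm
  rw [dot_smul_right]
  exact mul_le_mul_of_nonneg_left (h k hk hm) ht

/-- Subadditivity of the support function. -/
theorem VSl.add (h : VSl P j w c) (h' : VSl P j w' c') :
    VSl P j (fun v => w v + w' v) (c + c') := by
  intro k hk hm
  rw [dot_add_right]
  exact add_le_add (h k hk hm) (h' k hk hm)

theorem VSl.vslope_le (h0 : (0 : R →₀ ℝ) ∈ P) (h : VSl P j w c) : vslope P j w ≤ c := by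
  refine csSup_le ⟨0, 0, le_rfl, ?_, dot_zero _⟩ ?_
  · rwa [Finsupp.mapDomain_zero]
  · rintro x ⟨k, hk, hm, rfl⟩
    exact h k hk hm

theorem VSl.vslope (h : VSl P j w c) : VSl P j w (vslope P j w) := by
  intro k hk hm
  refine le_csSup ⟨c, ?_⟩ ⟨k, hk, hm, rfl⟩
  rintro x ⟨k, hk, hm, rfl⟩
  exact h k hk hm

end general

variable {Hm : R → Prop} {P : Set (R →₀ ℝ)} {j : V →ₗ[K] R}

theorem j_ne_zero (hj : Function.Injective j) {v : V} (hv : v ≠ 0) : j v ≠ 0 := by
  intro h
  exact hv (hj (by rw [h, map_zero]))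

theorem ne_zero_of_mapDomain (hP : IsExp Hm P) (hj : Function.Injective j) {k : V →₀ ℝ}
    (hm : k.mapDomain j ∈ P) {v : V} (hv : v ∈ k.support) : v ≠ 0 := by
  rintro rfl
  have h1 := hP.val0 hm
  have h2 : (k.mapDomain j) (j 0) = k 0 := Finsupp.mapDomain_apply hj k 0
  rw [map_zero, h1] at h2
  exact (Finsupp.mem_support_iff.mp hv) h2.symm

theorem VSl.mono (hP : IsExp Hm P) (hj : Function.Injective j) {w w' : V → ℝ} {c : ℝ}
    (h : VSl P j w' c) (hw : ∀ v, v ≠ 0 → w v ≤ w' v) : VSl P j w c := by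
  intro k hk hm
  exact (dot_mono hk fun v hv => hw v (ne_zero_of_mapDomain hP hj hm hv)).trans (h k hk hm)

/-- The slope on `V` in terms of the slope on `R`. -/
theorem vsl_iff (hj : Function.Injective j) {w : V → ℝ} {c : ℝ} :
    VSl P j w c ↔ SlopeLe P (fun f => f ∈ Set.range j) (Function.extend j w 0) c := by
  classical
  constructor
  · intro h k hk h0 hH
    have hsub : (k.support : Set R) ⊆ Set.range j := fun f hf => hH f hf
    have h1 : (k.comapDomain j hj.injOn).mapDomain j = k :=
      Finsupp.mapDomain_comapDomain j hj k hsub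
    have h2 : (0 : V →₀ ℝ) ≤ k.comapDomain j hj.injOn := fun v => h0 (j v)
    have h3 := h _ h2 (by rw [h1]; exact hk)
    have h4 : dot k (Function.extend j w 0) = dot (k.comapDomain j hj.injOn) w := by
      conv_lhs => rw [← h1]
      rw [dot_mapDomain]
      exact dot_congr fun v _ => hj.extend_apply w 0 v
    rwa [h4]
  · intro h k hk hm
    have h1 := h _ hm (mapDomain_nonneg hk) (by
      intro f hf
      have := Finsupp.mapDomain_support hf
      rw [Finset.mem_image] at this
      obtain ⟨v, -, rfl⟩ := this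
      exact ⟨v, rfl⟩)
    rw [dot_mapDomain] at h1
    have h2 : dot k (fun v => Function.extend j w 0 (j v)) = dot k w :=
      dot_congr fun v _ => hj.extend_apply w 0 v
    rwa [h2] at h1

/-- Elements of the ring whose scalar multiples are irrelevant. -/
def ScalarUnit (K : Type*) {R : Type*} [Field K] [CommRing R] [Algebra K R]
    (P : Set (R →₀ ℝ)) : Prop := ∀ c : K, c ≠ 0 → IsUnitAt P (algebraMap K R c)

/-- **Basis formula.** The slope of a filtration is computed on an adapted basis. -/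
theorem vsl_of_basis (hP : IsExp Hm P) (hj : Function.Injective j) (hK : ∀ c : K, Hm (algebraMap K R c)) (hV : ∀ v, Hm (j v)) {F : Wt K V}
    (hF : ∀ x, x ≠ 0 → 0 ≤ F.w x) {ι : Type*} [Fintype ι] {b : Basis ι K V} (hb : F.Adapted b)
    {c : ℝ} (h : ∀ κ : ι → ℝ, (∀ i, 0 ≤ κ i) → ∑ i, single (j (b i)) (κ i) ∈ P →
      ∑ i, κ i * F.w (b i) ≤ c) : VSl P j F.w c := by
  classical
  rw [vsl_iff hj]
  have hjb : Function.Injective fun i => j (b i) := hj.comp b.injective
  have hG : SlopeLe P (fun f => f ∈ Set.range fun i => j (b i)) (Function.extend j F.w 0) c := by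
    intro k hk h0 hH
    have hsum : ∑ i, single (j (b i)) (k (j (b i))) = k := by
      ext f
      rw [Finsupp.finsetSum_apply]
      by_cases hf : f ∈ Set.range fun i => j (b i)
      · obtain ⟨i, rfl⟩ := hf
        rw [Finset.sum_eq_single i]
        · simp
        · intro i' _ hi'
          rw [single_apply, if_neg fun h => hi' (hjb h)]
        · simp
      · rw [Finset.sum_eq_zero]
        · by_contra hne
          exact hf (hH f (Finsupp.mem_support_iff.mpr (Ne.symm hne)))
        · intro i _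
          rw [single_apply, if_neg fun h => hf ⟨i, h⟩]
    have h1 := h (fun i => k (j (b i))) (fun i => h0 _) (by rw [hsum]; exact hk)
    conv_lhs => rw [← hsum]
    rw [dot_finset_sum]
    refine le_trans (le_of_eq (Finset.sum_congr rfl fun i _ => ?_)) h1
    rw [dot_single, hj.extend_apply]
  refine SlopeLe.of_repl hP hG ?_
  rintro _ _ hv0 ⟨v, rfl⟩
  have hv : v ≠ 0 := by rintro rfl; exact hv0 (map_zero j)
  rw [hj.extend_apply]
  have h1 : j v = ∑ i, j (b.repr v i • b i) := by
    conv_lhs => rw [← b.sum_repr v]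
    rw [map_sum]
  rw [h1]
  refine Repl.sum hP (N := (LinearMap.range j).toAddSubmonoid) ?_ _ _
    (fun i _ => ⟨_, rfl⟩) fun i _ => ?_
  · rintro _ ⟨v, rfl⟩
    exact hV v
  by_cases hi : b.repr v i = 0
  · rw [hi, zero_smul, map_zero]
    exact Repl.zero hP
  · have h2 : Repl P (fun f => f ∈ Set.range fun i => j (b i)) (Function.extend j F.w 0)
        (j (b i)) (F.w (b i)) := by
      have h3 := Repl.of_gen (P := P) (G := fun f => f ∈ Set.range fun i => j (b i))
        (w := Function.extend j F.w 0) (g := j (b i)) ⟨i, rfl⟩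
        (by rw [hj.extend_apply]; exact hF _ (b.ne_zero i))
      rwa [hj.extend_apply] at h3
    have h4 := Repl.mul_left hP (hV _) (h2.mono (hb v i hi)) (hK (b.repr v i))
    rwa [← Algebra.smul_def, ← map_smul] at h4

/-- The converse of the basis formula. -/
theorem VSl.basis {w : V → ℝ} {c : ℝ} (h : VSl P j w c) {ι : Type*} [Fintype ι] (b : ι → V)
    {κ : ι → ℝ} (h0 : ∀ i, 0 ≤ κ i) (hκ : ∑ i, single (j (b i)) (κ i) ∈ P) :
    ∑ i, κ i * w (b i) ≤ c := by
  classical
  have h1 := h (∑ i, single (b i) (κ i)) (Finset.sum_nonneg fun i _ => by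
    intro f; rw [single_apply]; split_ifs; exacts [h0 i, le_rfl]) (by
    rw [Finsupp.mapDomain_finsetSum]
    simpa using hκ)
  rw [dot_finset_sum] at h1
  simpa using h1

section FD

variable [FiniteDimensional K V]

/-- **Joint subadditivity** of the slope. -/
theorem VSl.joint (hP : IsExp Hm P) (hj : Function.Injective j)
    (hK : ∀ c : K, Hm (algebraMap K R c)) (hV : ∀ v, Hm (j v)) {F G : Wt K V} {c c' t : ℝ}
    (hF : ∀ x, x ≠ 0 → 0 ≤ F.w x) (hG : ∀ x, x ≠ 0 → 0 ≤ G.w x) (ht : 0 ≤ t)
    (h : VSl P j F.w c) (h' : VSl P j G.w c') : VSl P j (F.joint G t).w (t * c + c') := by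
  obtain ⟨b, hbF, hbG⟩ := F.exists_adapted₂ G
  refine vsl_of_basis hP hj hK hV (F := F.joint G t) (fun x hx => ?_) (joint_adapted ht hbF hbG) ?_
  · exact le_trans (add_nonneg (mul_nonneg ht (hF x hx)) (hG x hx)) (joint_ge F G ht hx)
  · intro κ hκ hm
    have h1 := h.basis b hκ hm
    have h2 := h'.basis b hκ hm
    have h3 : ∑ i, κ i * (F.joint G t).w (b i) =
        t * ∑ i, κ i * F.w (b i) + ∑ i, κ i * G.w (b i) := by
      rw [Finset.mul_sum, ← Finset.sum_add_distrib]
      exact Finset.sum_congr rfl fun i _ => by rw [joint_basis ht hbF hbG]; ring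
    rw [h3]
    exact add_le_add (mul_le_mul_of_nonneg_left h1 ht) h2

end FD

end Vale.Agent.P271.Exp
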