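import Vale.Agent.P271.H604.OfDat
import Vale.Agent.P271.H604.OnWt

/-!
# P271 / APKG : filtrations and weight functions on the monoid of nonzero homogeneous elements

`H` is a submonoid of nonzero elements of `R`, `D : Zorn.Dat H` the exponent set of a point,
`V ≤ R` a subspace whose nonzero elements lie in `H`.
-/

namespace Vale.Agent.P271.Exp

open Finsupp Module Vale.Agent.P271.Filt Vale.Agent.P271.Filt.Wt

variable {R : Type*} [CommRing R] {K : Type*} [Field K] [Algebra K R] {H : Submonoid R}
  {V : Submodule K R}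

open Classical in
/-- The weight function of a filtration of `V`, extended by zero. -/
noncomputable def wtH (H : Submonoid R) (F : Wt K V) (h : H) : ℝ :=
  if hv : (h : R) ∈ V then F.w ⟨h, hv⟩ else 0

/-- The filtration of `V` given by a valuation on `H`. -/
noncomputable def ofVal (H : Submonoid R) (V : Submodule K R) (v : H → ℝ) (x : V) : ℝ :=
  open Classical in if hx : (x : R) ∈ H then v ⟨x, hx⟩ else 0

theorem wtH_nonneg {F : Wt K V} (_h0 : (0 : R) ∉ H) (hF : ∀ x, x ≠ 0 → 0 ≤ F.w x) (h : H) :
    0 ≤ wtH H F h := by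
  unfold wtH
  split_ifs with hv
  · refine hF _ fun hz => _h0 ?_
    have : (h : R) = 0 := congrArg Subtype.val hz
    rw [← this]; exact h.2
  · exact le_rfl

theorem ofVal_of_mem {v : H → ℝ} {x : V} (hx : (x : R) ∈ H) : ofVal H V v x = v ⟨x, hx⟩ := by
  unfold ofVal
  rw [dif_pos hx]

/-- A bound for the slope of a filtration bounds the threshold of its extension by zero. -/
theorem le_of_vsl (h0 : (0 : R) ∉ H) (D : Zorn.Dat H) {F : Wt K V} {c : ℝ}
    (h : VSl (extP H D.P) V.subtype F.w c) : D.Le (wtH H F) c := by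
  classical
  intro k hk hk0
  -- restrict to `V`
  set k₁ : H →₀ ℝ := k.filter fun f => (f : R) ∈ V with hk₁
  have hk₁P : k₁ ∈ D.P := by
    refine D.down k hk k₁ fun f => ?_
    rw [hk₁, Finsupp.filter_apply]
    split_ifs
    · exact le_rfl
    · exact hk0 f
  have hk₁0 : ∀ f, 0 ≤ k₁ f := by
    intro f
    rw [hk₁, Finsupp.filter_apply]
    split_ifs
    · exact hk0 f
    · exact le_rfl
  -- the exponent on `V`
  set kR : R →₀ ℝ := k₁.mapDomain (fun h : H => (h : R)) with hkR
  have hsub : (kR.support : Set R) ⊆ Set.range V.subtype := by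
    intro f hf
    have := Finsupp.mapDomain_support hf
    rw [Finset.mem_image] at this
    obtain ⟨g, hg, rfl⟩ := this
    rw [hk₁, Finsupp.mem_support_iff, Finsupp.filter_apply] at hg
    have hgV : (g : R) ∈ V := by
      by_contra hcon
      exact hg (if_neg hcon)
    exact ⟨⟨g, hgV⟩, rfl⟩
  have hjV : Function.Injective V.subtype := Subtype.val_injective
  set kV : V →₀ ℝ := kR.comapDomain V.subtype hjV.injOn with hkV
  have h1 : kV.mapDomain V.subtype = kR := Finsupp.mapDomain_comapDomain _ hjV kR hsub
  have hkR0 : ∀ f, 0 ≤ kR f := by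
    intro f
    by_cases hf : f ∈ Set.range fun h : H => (h : R)
    · obtain ⟨g, rfl⟩ := hf
      rw [hkR, Finsupp.mapDomain_apply Subtype.val_injective]
      exact hk₁0 g
    · rw [hkR, Finsupp.mapDomain_of_notMem_range _ _ hf]
  have h2 := h kV (fun v => hkR0 _) (by
    rw [h1, hkR]
    exact mapDomain_mem_extP.mpr hk₁P)
  -- compare the pairings
  have h3 : dot kV F.w = Zorn.pair k (wtH H F) := by
    have h4 : dot kV F.w = dot kR (Function.extend V.subtype F.w 0) := by
      rw [← h1, dot_mapDomain]
      exact dot_congr fun v _ => (hjV.extend_apply F.w 0 v).symm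
    have h5 : dot k₁ (fun f : H => Function.extend V.subtype F.w 0 (f : R)) =
        dot k₁ (wtH H F) := by
      refine dot_congr fun f hf => ?_
      rw [hk₁, Finsupp.mem_support_iff, Finsupp.filter_apply] at hf
      have hfV : (f : R) ∈ V := by
        by_contra hcon
        exact hf (if_neg hcon)
      unfold wtH
      rw [dif_pos hfV]
      exact hjV.extend_apply F.w 0 ⟨f, hfV⟩
    rw [h4, hkR, dot_mapDomain, h5]
    have h6 : k₁.support ⊆ k.support := by
      rw [hk₁, Finsupp.support_filter]
      exact Finset.filter_subset _ _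
    rw [dot_eq_sum k₁ (wtH H F) h6, Zorn.pair_def]
    refine Finset.sum_congr rfl fun f _ => ?_
    rw [hk₁, Finsupp.filter_apply]
    split_ifs with hfV
    · rfl
    · unfold wtH
      rw [dif_neg hfV, zero_mul, mul_zero]
  rw [← h3]
  exact h2

/-- The threshold of a weight function on `H` bounds the slope of its restriction to `V`. -/
theorem vsl_of_le (D : Zorn.Dat H) {v : H → ℝ} {c : ℝ} (h : D.Le v c) :
    VSl (extP H D.P) V.subtype (ofVal H V v) c := by
  classical
  intro k hk0 hk
  obtain ⟨k', hk', hkk'⟩ := mem_extP_iff.mp hk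
  have hjV : Function.Injective V.subtype := Subtype.val_injective
  have h1 : ∀ f : H, 0 ≤ k' f := by
    intro f
    have h2 : (k'.mapDomain fun h : H => (h : R)) (f : R) = k' f :=
      Finsupp.mapDomain_apply Subtype.val_injective k' f
    rw [← h2, hkk']
    exact mapDomain_nonneg hk0 _
  have h2 := h k' hk' h1
  -- both pairings are the pairing of the exponent on `R` with the extension of `v`
  have h3 : Zorn.pair k' v = dot (k'.mapDomain fun h : H => (h : R))
      (Function.extend (fun h : H => (h : R)) v 0) := by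
    rw [dot_mapDomain]
    change dot k' v = _
    exact dot_congr fun f _ => (Subtype.val_injective.extend_apply v 0 f).symm
  have h4 : dot k (ofVal H V v) = dot (k.mapDomain V.subtype)
      (Function.extend (fun h : H => (h : R)) v 0) := by
    rw [dot_mapDomain]
    refine dot_congr fun x _ => ?_
    unfold ofVal
    split_ifs with hx
    · exact (Subtype.val_injective.extend_apply v 0 (⟨x, hx⟩ : H)).symm
    · rw [Function.extend_apply']
      · rfl
      · rintro ⟨g, hg⟩
        apply hx
        have : (x : R) = g := hg.symm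
        rw [this]
        exact g.2
  rw [h4, ← hkk', ← h3]
  exact h2

/-- **Zorn.** A filtration of slope `≤ c` lies below a saturated weight function (a valuation)
of threshold `≤ c`. -/
theorem exists_sat_of_vsl (h0 : (0 : R) ∉ H) (D : Zorn.Dat H) {F : Wt K V}
    (hF : ∀ x, x ≠ 0 → 0 ≤ F.w x) {c : ℝ} (h : VSl (extP H D.P) V.subtype F.w c) :
    ∃ v : H → ℝ, D.Sat v c ∧ (∀ x : V, ∀ hx : (x : R) ∈ H, F.w x ≤ v ⟨x, hx⟩) ∧
      VSl (extP H D.P) V.subtype (ofVal H V v) c := by
  obtain ⟨v, hle, hsat⟩ := D.exists_sat (wtH H F) (wtH_nonneg h0 hF) (le_of_vsl h0 D h)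
  refine ⟨v, hsat, fun x hx => ?_, vsl_of_le D hsat.le⟩
  have h1 := hle ⟨x, hx⟩
  unfold wtH at h1
  rw [dif_pos x.2] at h1
  exact h1

end Vale.Agent.P271.Exp
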