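import Mathlib

/-!
# P271 / APKG : exponent sets

`R` is a ring of functions that are holomorphic near a point `p`.  The exponent set of `p` is the
set `P` of all finitely supported real exponents `k : R →₀ ℝ` such that `∏ |f|^{-2 k f}` is
integrable near `p`.  This file isolates its formal properties (`IsExp`) and the slope functional
`k ↦ dot k w`.
-/

namespace Vale.Agent.P271.Exp

open Finsupp

/-- The pairing of an exponent with a weight function. -/
noncomputable def dot {R : Type*} (k : R →₀ ℝ) (w : R → ℝ) : ℝ := k.sum fun f c => c * w f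

section dot

variable {R : Type*}

@[simp] theorem dot_zero (w : R → ℝ) : dot (0 : R →₀ ℝ) w = 0 := by simp [dot]

theorem dot_add (k k' : R →₀ ℝ) (w : R → ℝ) : dot (k + k') w = dot k w + dot k' w := by
  classical
  exact Finsupp.sum_add_index' (fun _ => zero_mul _) (fun _ _ _ => add_mul _ _ _)

@[simp] theorem dot_single (f : R) (c : ℝ) (w : R → ℝ) : dot (single f c) w = c * w f := by
  classical
  exact Finsupp.sum_single_index (zero_mul _)

theorem dot_smul (t : ℝ) (k : R →₀ ℝ) (w : R → ℝ) : dot (t • k) w = t * dot k w := by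
  classical
  unfold dot
  rw [Finsupp.sum_smul_index (fun _ => zero_mul _), Finsupp.mul_sum]
  exact Finsupp.sum_congr fun f _ => mul_assoc _ _ _

theorem dot_finset_sum {ι : Type*} (s : Finset ι) (k : ι → R →₀ ℝ) (w : R → ℝ) :
    dot (∑ i ∈ s, k i) w = ∑ i ∈ s, dot (k i) w := by
  classical
  induction s using Finset.induction_on with
  | empty => simp
  | insert i s hi ih => rw [Finset.sum_insert hi, Finset.sum_insert hi, dot_add, ih]

theorem dot_eq_sum (k : R →₀ ℝ) (w : R → ℝ) {s : Finset R} (hs : k.support ⊆ s) :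
    dot k w = ∑ f ∈ s, k f * w f :=
  Finsupp.sum_of_support_subset _ hs _ (fun _ _ => zero_mul _)

theorem dot_nonneg {k : R →₀ ℝ} {w : R → ℝ} (hk : 0 ≤ k) (hw : ∀ f ∈ k.support, 0 ≤ w f) :
    0 ≤ dot k w :=
  Finset.sum_nonneg fun f hf => mul_nonneg (hk f) (hw f hf)

theorem dot_mono {k : R →₀ ℝ} {w w' : R → ℝ} (hk : 0 ≤ k) (hw : ∀ f ∈ k.support, w f ≤ w' f) :
    dot k w ≤ dot k w' :=
  Finset.sum_le_sum fun f hf => mul_le_mul_of_nonneg_left (hw f hf) (hk f)

theorem dot_congr {k : R →₀ ℝ} {w w' : R → ℝ} (hw : ∀ f ∈ k.support, w f = w' f) :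
    dot k w = dot k w' :=
  Finset.sum_congr rfl fun f hf => by simp only [hw f hf]

theorem dot_add_right (k : R →₀ ℝ) (w w' : R → ℝ) :
    dot k (fun f => w f + w' f) = dot k w + dot k w' := by
  unfold dot Finsupp.sum
  rw [← Finset.sum_add_distrib]
  exact Finset.sum_congr rfl fun f _ => mul_add _ _ _

theorem dot_smul_right (t : ℝ) (k : R →₀ ℝ) (w : R → ℝ) :
    dot k (fun f => t * w f) = t * dot k w := by
  unfold dot Finsupp.sum
  rw [Finset.mul_sum]
  exact Finset.sum_congr rfl fun f _ => by ring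

theorem dot_mono_left {k k' : R →₀ ℝ} {w : R → ℝ} (hk : k ≤ k') (hw : ∀ f, 0 ≤ w f) :
    dot k w ≤ dot k' w := by
  classical
  rw [dot_eq_sum k w (Finset.subset_union_left (s₂ := k'.support)),
    dot_eq_sum k' w (Finset.subset_union_right (s₁ := k.support))]
  exact Finset.sum_le_sum fun f _ => mul_le_mul_of_nonneg_right (hk f) (hw f)

theorem dot_mapDomain {S : Type*} (e : R → S) (k : R →₀ ℝ) (w : S → ℝ) :
    dot (k.mapDomain e) w = dot k (fun f => w (e f)) := by
  classical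
  unfold dot
  exact Finsupp.sum_mapDomain_index (fun _ => zero_mul _) (fun _ _ _ => add_mul _ _ _)

end dot

/-- The formal properties of the exponent set of a point. `Hm` singles out the allowed elements
(all elements, or the homogeneous elements of a graded ring; zero is allowed in `Hm` but never in
the support of an exponent).

* `convex` is Hölder's inequality (negative exponents allowed);
* `down`: the functions are bounded near the point;
* `mul`: multiplicativity of the absolute value;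
* `add`: the summation formula (with a fixed factor of nonnegative exponents);
* `pos`: `|f|^{-2t}` is integrable for small `t`. -/
structure IsExp {R : Type*} [CommRing R] (Hm : R → Prop) (P : Set (R →₀ ℝ)) : Prop where
  zero_mem : (0 : R →₀ ℝ) ∈ P
  hm_one : Hm 1
  hm_mul : ∀ f g, Hm f → Hm g → Hm (f * g)
  supp : ∀ k ∈ P, ∀ f ∈ k.support, Hm f ∧ f ≠ 0
  convex : Convex ℝ P
  down : ∀ k ∈ P, ∀ k' : R →₀ ℝ, (∀ f ∈ k'.support, Hm f ∧ f ≠ 0) → k' ≤ k → k' ∈ P
  mul : ∀ (k : R →₀ ℝ) (f g : R) (K : ℝ), Hm f → Hm g → f ≠ 0 → g ≠ 0 →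
    (k + single (f * g) K ∈ P ↔ k + single f K + single g K ∈ P)
  add : ∀ (k : R →₀ ℝ) (f g : R) (K K' : ℝ), Hm f → Hm g → Hm (f + g) → 0 ≤ k → 0 ≤ K' → K' < K →
    k + single (f + g) K ∈ P →
      ∃ K₁ K₂ : ℝ, 0 ≤ K₁ ∧ 0 ≤ K₂ ∧ K₁ + K₂ = K' ∧ k + single f K₁ + single g K₂ ∈ P
  pos : ∀ f : R, Hm f → f ≠ 0 → ∃ t : ℝ, 0 < t ∧ single f t ∈ P

/-- `f` is a unit at the point: its exponent is irrelevant. -/
def IsUnitAt {R : Type*} [CommRing R] (P : Set (R →₀ ℝ)) (f : R) : Prop :=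
  ∀ k : R →₀ ℝ, ∀ K : ℝ, k ∈ P → k + single f K ∈ P

/-- The weight function `w` has slope at most `c` : `∑ k f * w f ≤ c` for all nonnegative
integrable exponents `k` supported on elements with property `H`. -/
def SlopeLe {R : Type*} (P : Set (R →₀ ℝ)) (H : R → Prop) (w : R → ℝ) (c : ℝ) : Prop :=
  ∀ k ∈ P, 0 ≤ k → (∀ f ∈ k.support, H f) → dot k w ≤ c

section

variable {R : Type*} [CommRing R] {Hm : R → Prop} {P : Set (R →₀ ℝ)}

namespace IsExp

variable (hP : IsExp Hm P)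

include hP

theorem val0 {k : R →₀ ℝ} (hk : k ∈ P) : k 0 = 0 := by
  by_contra h
  exact (hP.supp k hk 0 (Finsupp.mem_support_iff.mpr h)).2 rfl

theorem ne_zero_of_pos {k : R →₀ ℝ} {f : R} {K : ℝ} (hk : 0 ≤ k) (hK : 0 < K)
    (h : k + single f K ∈ P) : Hm f ∧ f ≠ 0 := by
  refine hP.supp _ h f (Finsupp.mem_support_iff.mpr ?_)
  rw [Finsupp.add_apply, single_eq_same]
  have h2 : 0 ≤ k f := hk f
  linarith

theorem ne_zero_of_support {k : R →₀ ℝ} (hk : k ∈ P) {f : R} (hf : f ∈ k.support) : f ≠ 0 :=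
  (hP.supp k hk f hf).2

theorem hm_pow {f : R} (hf : Hm f) (n : ℕ) : Hm (f ^ n) := by
  induction n with
  | zero => rw [pow_zero]; exact hP.hm_one
  | succ n ih => rw [pow_succ]; exact hP.hm_mul _ _ ih hf

theorem hm_prod {ι : Type*} (t : Finset ι) (F : ι → R) (hF : ∀ i ∈ t, Hm (F i)) :
    Hm (∏ i ∈ t, F i) := by
  classical
  induction t using Finset.induction_on with
  | empty => rw [Finset.prod_empty]; exact hP.hm_one
  | insert i t hi ih =>
    rw [Finset.prod_insert hi]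
    exact hP.hm_mul _ _ (hF i (Finset.mem_insert_self _ _))
      (ih fun j hj => hF j (Finset.mem_insert_of_mem hj))

theorem smul_mem {k : R →₀ ℝ} (hk : k ∈ P) {t : ℝ} (h0 : 0 ≤ t) (h1 : t ≤ 1) : t • k ∈ P := by
  have h := hP.convex hk hP.zero_mem h0 (sub_nonneg.mpr h1) (by ring)
  simpa using h

/-- Going down among nonnegative exponents. -/
theorem down_nonneg {k k' : R →₀ ℝ} (hk : k ∈ P) (h0 : 0 ≤ k') (hle : k' ≤ k) : k' ∈ P := by
  refine hP.down k hk k' (fun f hf => hP.supp k hk f ?_) hle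
  rw [Finsupp.mem_support_iff] at hf ⊢
  have h1 : 0 ≤ k' f := h0 f
  have h2 : k' f ≤ k f := hle f
  intro h3
  exact hf (le_antisymm (h2.trans h3.le) h1)

/-- Lower a coefficient. -/
theorem lower {k : R →₀ ℝ} {f : R} {K K' : ℝ} (hm : Hm f) (hf : f ≠ 0) (h : k + single f K ∈ P)
    (hK : K' ≤ K) : k + single f K' ∈ P := by
  classical
  refine hP.down _ h _ ?_ ?_
  · intro g hg
    by_cases hgf : g = f
    · rw [hgf]; exact ⟨hm, hf⟩
    · refine hP.supp _ h g ?_
      rw [Finsupp.mem_support_iff, Finsupp.add_apply, single_apply, if_neg (Ne.symm hgf)] at hg ⊢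
      exact hg
  · intro g
    rw [Finsupp.add_apply, Finsupp.add_apply, single_apply, single_apply]
    split_ifs <;> linarith

omit hP [CommRing R] in
theorem _root_.Vale.Agent.P271.Exp.single_nonneg' {f : R} {K : ℝ} (hK : 0 ≤ K) :
    (0 : R →₀ ℝ) ≤ single f K := by
  classical
  intro g
  rw [single_apply]
  split_ifs <;> simp [hK]

theorem single_mem {f : R} {t t' : ℝ} (h : single f t ∈ P) (h0 : 0 ≤ t') (hle : t' ≤ t) :
    single f t' ∈ P := by
  classical
  refine hP.down_nonneg h (single_nonneg' h0) fun g => ?_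
  rw [single_apply, single_apply]
  split_ifs
  · exact hle
  · exact le_rfl

/-- The exponent set contains all small multiples of any finite set of nonzero functions. -/
theorem exists_box (s : Finset R) (hs : ∀ f ∈ s, Hm f ∧ f ≠ 0) :
    ∃ t : ℝ, 0 < t ∧ ∑ f ∈ s, single f t ∈ P := by
  classical
  induction s using Finset.induction_on with
  | empty => exact ⟨1, one_pos, by simpa using hP.zero_mem⟩
  | insert f s hfs ih =>
    obtain ⟨t, ht, h1⟩ := ih fun g hg => hs g (Finset.mem_insert_of_mem hg)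
    have hf0 := hs f (Finset.mem_insert_self _ _)
    obtain ⟨t', ht', h2⟩ := hP.pos f hf0.1 hf0.2
    have h3 := hP.convex h1 h2 (by norm_num : (0 : ℝ) ≤ 1 / 2) (by norm_num : (0 : ℝ) ≤ 1 / 2)
      (by norm_num)
    have ht0 : 0 < min t t' / 2 := by positivity
    refine ⟨min t t' / 2, ht0, hP.down_nonneg h3 ?_ ?_⟩
    · exact Finset.sum_nonneg fun g _ => single_nonneg' ht0.le
    · rw [Finset.sum_insert hfs]
      intro g
      simp only [Finsupp.add_apply, Finsupp.smul_apply, Finsupp.finsetSum_apply, smul_eq_mul,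
        single_apply, Finset.sum_ite_eq']
      have h5 := min_le_left t t'
      have h6 := min_le_right t t'
      split_ifs <;> nlinarith

theorem of_add_nonneg {k : R →₀ ℝ} {f : R} {K : ℝ} (hk : 0 ≤ k) (hK : 0 ≤ K)
    (h : k + single f K ∈ P) : k ∈ P :=
  hP.down_nonneg h hk (le_add_of_nonneg_right (single_nonneg' hK))

end IsExp

/-- `f` can be replaced by elements with property `G` with value at least `r`: in a nonnegative
integrable exponent the coefficient `K` of `f` can be traded for a nonnegative exponent supported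
on `G` of weight almost `K * r`. -/
def Repl (P : Set (R →₀ ℝ)) (G : R → Prop) (w : R → ℝ) (f : R) (r : ℝ) : Prop :=
  ∀ k : R →₀ ℝ, 0 ≤ k → ∀ K : ℝ, 0 ≤ K → ∀ ρ : ℝ, 0 ≤ ρ → ρ < 1 → k + single f K ∈ P →
    ∃ k₁ : R →₀ ℝ, 0 ≤ k₁ ∧ (∀ g ∈ k₁.support, G g) ∧ k + k₁ ∈ P ∧ ρ * K * r ≤ dot k₁ w

namespace Repl

variable {G : R → Prop} {w : R → ℝ} {f g : R} {r s : ℝ}

omit [CommRing R] in
theorem of_gen (hg : G g) (hw : 0 ≤ w g) : Repl P G w g (w g) := by
  classical
  intro k hk K hK ρ h0 h1 h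
  refine ⟨single g K, single_nonneg' hK, ?_, h, ?_⟩
  · intro g' hg'
    have := Finsupp.support_single_subset hg'
    rw [Finset.mem_singleton] at this
    rwa [this]
  · rw [dot_single]
    have : 0 ≤ K * w g := mul_nonneg hK hw
    nlinarith

omit [CommRing R] in
theorem mono (h : Repl P G w f r) (hs : s ≤ r) : Repl P G w f s := by
  intro k hk K hK ρ h0 h1 hm
  obtain ⟨k₁, h2, h3, h4, h5⟩ := h k hk K hK ρ h0 h1 hm
  exact ⟨k₁, h2, h3, h4, (mul_le_mul_of_nonneg_left hs (mul_nonneg h0 hK)).trans h5⟩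

theorem of_nonpos (hP : IsExp Hm P) (hr : r ≤ 0) : Repl P G w f r := by
  intro k hk K hK ρ h0 h1 hm
  refine ⟨0, le_rfl, by simp, ?_, ?_⟩
  · rw [add_zero]; exact hP.of_add_nonneg hk hK hm
  · rw [dot_zero]
    exact mul_nonpos_of_nonneg_of_nonpos (mul_nonneg h0 hK) hr

/-- Only positive coefficients matter. -/
theorem of_pos (hP : IsExp Hm P) (h : ∀ k : R →₀ ℝ, 0 ≤ k → ∀ K : ℝ, 0 < K → ∀ ρ : ℝ, 0 ≤ ρ →
    ρ < 1 → Hm f → f ≠ 0 → k + single f K ∈ P →
    ∃ k₁ : R →₀ ℝ, 0 ≤ k₁ ∧ (∀ g ∈ k₁.support, G g) ∧ k + k₁ ∈ P ∧ ρ * K * r ≤ dot k₁ w) :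
    Repl P G w f r := by
  intro k hk K hK ρ h0 h1 hm
  rcases hK.eq_or_lt with hK0 | hK0
  · refine ⟨0, le_rfl, by simp, ?_, ?_⟩
    · rw [← hK0, single_zero] at hm; exact hm
    · rw [dot_zero, ← hK0, mul_zero, zero_mul]
  · have h2 := hP.ne_zero_of_pos hk hK0 hm
    exact h k hk K hK0 ρ h0 h1 h2.1 h2.2 hm

theorem zero (hP : IsExp Hm P) : Repl P G w 0 r :=
  of_pos hP fun _ _ _ _ _ _ _ _ h => absurd rfl h

theorem mul (hP : IsExp Hm P) (hmf : Hm f) (hmg : Hm g) (hf : Repl P G w f r)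
    (hg : Repl P G w g s) : Repl P G w (f * g) (r + s) := by
  classical
  refine of_pos hP fun k hk K hK ρ h0 h1 _ hfg hm => ?_
  have hf0 : f ≠ 0 := left_ne_zero_of_mul hfg
  have hg0 : g ≠ 0 := right_ne_zero_of_mul hfg
  rw [hP.mul _ _ _ _ hmf hmg hf0 hg0] at hm
  obtain ⟨k₁, h2, h3, h4, h5⟩ := hg (k + single f K) (add_nonneg hk (single_nonneg' hK.le)) K
    hK.le ρ h0 h1 hm
  have h6 : k + k₁ + single f K ∈ P := by
    rwa [add_right_comm] at h4
  obtain ⟨k₂, h7, h8, h9, h10⟩ := hf (k + k₁) (add_nonneg hk h2) K hK.le ρ h0 h1 h6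
  refine ⟨k₁ + k₂, add_nonneg h2 h7, ?_, ?_, ?_⟩
  · intro g' hg'
    rcases Finset.mem_union.mp (Finsupp.support_add hg') with h | h
    · exact h3 g' h
    · exact h8 g' h
  · rwa [← add_assoc]
  · rw [dot_add]; linarith [mul_add (ρ * K) r s]

theorem add (hP : IsExp Hm P) (hmf : Hm f) (hmg : Hm g) (hf : Repl P G w f r)
    (hg : Repl P G w g r) : Repl P G w (f + g) r := by
  classical
  refine of_pos hP fun k hk K hK ρ h0 h1 hmfg hfg hm => ?_
  set ρ₁ : ℝ := (1 + ρ) / 2 with hρ₁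
  have hρ₁1 : ρ₁ < 1 := by rw [hρ₁]; linarith
  have hρ₁0 : 0 < ρ₁ := by rw [hρ₁]; linarith
  have hρρ₁ : ρ < ρ₁ := by rw [hρ₁]; linarith
  set ρ₂ : ℝ := ρ / ρ₁ with hρ₂
  have hρ₂0 : 0 ≤ ρ₂ := div_nonneg h0 hρ₁0.le
  have hρ₂1 : ρ₂ < 1 := (div_lt_one hρ₁0).mpr hρρ₁
  obtain ⟨K₁, K₂, hK₁, hK₂, hsum, hm2⟩ := hP.add k f g K (ρ₁ * K) hmf hmg hmfg hk
    (mul_nonneg hρ₁0.le hK.le) (by nlinarith) hm
  obtain ⟨k₁, h2, h3, h4, h5⟩ := hg (k + single f K₁) (add_nonneg hk (single_nonneg' hK₁)) K₂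
    hK₂ ρ₂ hρ₂0 hρ₂1 hm2
  have h6 : k + k₁ + single f K₁ ∈ P := by
    rwa [add_right_comm] at h4
  obtain ⟨k₂, h7, h8, h9, h10⟩ := hf (k + k₁) (add_nonneg hk h2) K₁ hK₁ ρ₂ hρ₂0 hρ₂1 h6
  refine ⟨k₁ + k₂, add_nonneg h2 h7, ?_, ?_, ?_⟩
  · intro g' hg'
    rcases Finset.mem_union.mp (Finsupp.support_add hg') with h | h
    · exact h3 g' h
    · exact h8 g' h
  · rwa [← add_assoc]
  · rw [dot_add]
    have h11 : ρ * K * r = ρ₂ * K₂ * r + ρ₂ * K₁ * r := by
      have : ρ = ρ₂ * ρ₁ := by rw [hρ₂]; field_simp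
      calc ρ * K * r = ρ₂ * (ρ₁ * K) * r := by rw [this]; ring
        _ = ρ₂ * (K₁ + K₂) * r := by rw [hsum]
        _ = _ := by ring
    linarith

/-- Sums inside an additive submonoid of allowed elements (a graded piece). -/
theorem sum (hP : IsExp Hm P) {ι : Type*} {N : AddSubmonoid R} (hN : ∀ x ∈ N, Hm x)
    (t : Finset ι) (F : ι → R) (hF : ∀ i ∈ t, F i ∈ N)
    (h : ∀ i ∈ t, Repl P G w (F i) r) : Repl P G w (∑ i ∈ t, F i) r := by
  classical
  induction t using Finset.induction_on with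
  | empty => rw [Finset.sum_empty]; exact zero hP
  | insert i t hi ih =>
    have hF' := fun j hj => hF j (Finset.mem_insert_of_mem hj)
    rw [Finset.sum_insert hi]
    exact add hP (hN _ (hF i (Finset.mem_insert_self _ _))) (hN _ (N.sum_mem hF'))
      (h i (Finset.mem_insert_self _ _)) (ih hF' fun j hj => h j (Finset.mem_insert_of_mem hj))

theorem pow (hP : IsExp Hm P) (hmf : Hm f) (hf : Repl P G w f r) (n : ℕ) :
    Repl P G w (f ^ n) (n * r) := by
  induction n with
  | zero => exact of_nonpos hP (by simp)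
  | succ n ih =>
    have := mul hP (hP.hm_pow hmf n) hmf ih hf
    rw [← pow_succ] at this
    exact this.mono (by push_cast; linarith)

theorem prod (hP : IsExp Hm P) {ι : Type*} (t : Finset ι) (F : ι → R) (e : ι → ℕ) (v : ι → ℝ)
    (hF : ∀ i ∈ t, Hm (F i)) (h : ∀ i ∈ t, Repl P G w (F i) (v i)) :
    Repl P G w (∏ i ∈ t, F i ^ e i) (∑ i ∈ t, e i * v i) := by
  classical
  induction t using Finset.induction_on with
  | empty => exact of_nonpos hP (by simp)
  | insert i t hi ih =>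
    have hF' := fun j hj => hF j (Finset.mem_insert_of_mem hj)
    rw [Finset.prod_insert hi, Finset.sum_insert hi]
    exact mul hP (hP.hm_pow (hF i (Finset.mem_insert_self _ _)) _)
      (hP.hm_prod _ _ fun j hj => hP.hm_pow (hF' j hj) _)
      ((h i (Finset.mem_insert_self _ _)).pow hP (hF i (Finset.mem_insert_self _ _)) _)
      (ih hF' fun j hj => h j (Finset.mem_insert_of_mem hj))

/-- Multiplication by anything does not lower the value. -/
theorem mul_left (hP : IsExp Hm P) (hmf : Hm f) (hf : Repl P G w f r) (hmg : Hm g) :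
    Repl P G w (g * f) r := by
  have := mul hP hmg hmf (of_nonpos hP le_rfl : Repl P G w g 0) hf
  rwa [zero_add] at this

/-- A unit factor can be removed. -/
theorem of_unit_mul (hP : IsExp Hm P) (hmg : Hm g) (hg0 : g ≠ 0) (hg : IsUnitAt P g)
    (h : Repl P G w (g * f) r) : Repl P G w f r := by
  refine of_pos hP fun k hk K hK ρ h0 h1 hmf hf0 hm => ?_
  refine h k hk K hK.le ρ h0 h1 ?_
  rw [hP.mul _ _ _ _ hmg hmf hg0 hf0, add_right_comm]
  exact hg _ _ hm

/-- Trade all coefficients at once. -/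
theorem trade (t : Finset R) (K v : R → ℝ) (hK : ∀ f ∈ t, 0 ≤ K f)
    (h : ∀ f ∈ t, Repl P G w f (v f)) {ρ : ℝ} (h0 : 0 ≤ ρ) (h1 : ρ < 1) :
    ∀ k : R →₀ ℝ, 0 ≤ k → k + ∑ f ∈ t, single f (K f) ∈ P →
      ∃ k₁ : R →₀ ℝ, 0 ≤ k₁ ∧ (∀ g ∈ k₁.support, G g) ∧ k + k₁ ∈ P ∧
        ρ * ∑ f ∈ t, K f * v f ≤ dot k₁ w := by
  classical
  induction t using Finset.induction_on with
  | empty =>
    intro k hk hm
    exact ⟨0, le_rfl, by simp, by simpa using hm, by simp⟩
  | insert f t hf ih =>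
    intro k hk hm
    rw [Finset.sum_insert hf] at hm
    have hKf := hK f (Finset.mem_insert_self _ _)
    have hm' : (k + ∑ g ∈ t, single g (K g)) + single f (K f) ∈ P := by
      have : k + (single f (K f) + ∑ g ∈ t, single g (K g)) =
        (k + ∑ g ∈ t, single g (K g)) + single f (K f) := by abel
      rwa [this] at hm
    have hks : (0 : R →₀ ℝ) ≤ ∑ g ∈ t, single g (K g) :=
      Finset.sum_nonneg fun g hg => single_nonneg' (hK g (Finset.mem_insert_of_mem hg))
    obtain ⟨k₁, h2, h3, h4, h5⟩ := h f (Finset.mem_insert_self _ _) _ (add_nonneg hk hks) _ hKf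
      ρ h0 h1 hm'
    have h6 : k + k₁ + ∑ g ∈ t, single g (K g) ∈ P := by rwa [add_right_comm] at h4
    obtain ⟨k₂, h7, h8, h9, h10⟩ := ih (fun g hg => hK g (Finset.mem_insert_of_mem hg))
      (fun g hg => h g (Finset.mem_insert_of_mem hg)) _ (add_nonneg hk h2) h6
    refine ⟨k₁ + k₂, add_nonneg h2 h7, ?_, ?_, ?_⟩
    · intro g' hg'
      rcases Finset.mem_union.mp (Finsupp.support_add hg') with h | h
      · exact h3 g' h
      · exact h8 g' h
    · rwa [← add_assoc]
    · rw [dot_add, Finset.sum_insert hf, mul_add]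
      linarith [mul_assoc ρ (K f) (v f)]

end Repl

theorem le_of_forall_mul_le {x c : ℝ} (h : ∀ ρ : ℝ, 0 ≤ ρ → ρ < 1 → ρ * x ≤ c) : x ≤ c := by
  have h0 : (0 : ℝ) ≤ c := by simpa using h 0 le_rfl one_pos
  rcases le_or_gt x 0 with hx | hx
  · exact hx.trans h0
  · refine le_of_forall_lt_imp_le_of_dense fun y hy => ?_
    rcases le_or_gt y 0 with hy0 | hy0
    · exact hy0.trans h0
    · have := h (y / x) (div_nonneg hy0.le hx.le) ((div_lt_one hx).mpr hy)
      rwa [div_mul_cancel₀ _ hx.ne'] at this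

/-- The slope bound passes from generators to everything that can be replaced. -/
theorem SlopeLe.of_repl (hP : IsExp Hm P) {G H : R → Prop} {w w' : R → ℝ} {c : ℝ}
    (hG : SlopeLe P G w c) (h : ∀ f, Hm f → f ≠ 0 → H f → Repl P G w f (w' f)) :
    SlopeLe P H w' c := by
  classical
  intro k hk h0 hH
  refine le_of_forall_mul_le fun ρ hρ0 hρ1 => ?_
  have hsum : k = ∑ f ∈ k.support, single f (k f) := (Finsupp.sum_single k).symm
  obtain ⟨k₁, h2, h3, h4, h5⟩ := Repl.trade k.support k w' (fun f _ => h0 f)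
    (fun f hf => h f (hP.supp k hk f hf).1 (hP.supp k hk f hf).2 (hH f hf)) hρ0 hρ1 0 le_rfl
    (by rw [zero_add, ← hsum]; exact hk)
  rw [zero_add] at h4
  exact h5.trans (hG k₁ h4 h2 h3)

end

end Vale.Agent.P271.Exp
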