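import Vale.Agent.P271.H604.Slope

/-!
# P271 / APKG : a vector below the support function lies in the exponent set (up to `θ < 1`)
-/

namespace Vale.Agent.P271.Exp

open Finsupp Module Vale.Agent.P271.Filt Vale.Agent.P271.Filt.Wt Vale.Agent.P271.Chain

section convexSet

variable {ι : Type*} [Fintype ι]

/-- **Duality.** `Q` convex, closed downwards, with a positive vector, invariant under the
coordinates outside `I`. If `k* ≥ 0` satisfies `k* · l ≤ sup_{k ∈ Q, k ≥ 0} k · l` for all `l ≥ 0`
vanishing outside `I`, then `θ k* ∈ Q` for all `θ < 1`. -/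
theorem mem_of_support {Q : Set (ι → ℝ)} (hconv : Convex ℝ Q)
    (hdown : ∀ k ∈ Q, ∀ k' : ι → ℝ, k' ≤ k → k' ∈ Q) {t : ℝ} (ht : 0 < t)
    (hbox : (fun _ => t) ∈ Q) {I : Set ι}
    (hI : ∀ k ∈ Q, ∀ k' : ι → ℝ, (∀ i ∈ I, k' i = k i) → k' ∈ Q)
    {ks : ι → ℝ} (hks : ∀ i, 0 ≤ ks i)
    (h : ∀ l : ι → ℝ, (∀ i, 0 ≤ l i) → (∀ i ∉ I, l i = 0) → ∀ c : ℝ,
      (∀ k ∈ Q, (∀ i, 0 ≤ k i) → ∑ i, k i * l i ≤ c) → ∑ i, ks i * l i ≤ c)
    {θ : ℝ} (h0 : 0 ≤ θ) (h1 : θ < 1) : (fun i => θ * ks i) ∈ Q := by
  classical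
  -- the interior
  have hint : ∀ k : ι → ℝ, (∀ i, k i < t) → k ∈ interior Q := by
    intro k hk
    rw [mem_interior]
    refine ⟨Set.pi Set.univ fun _ => Set.Iio t, ?_, ?_, ?_⟩
    · intro k' hk'
      exact hdown _ hbox k' fun i => (hk' i (Set.mem_univ i)).le
    · exact isOpen_set_pi Set.finite_univ fun _ _ => isOpen_Iio
    · exact fun i _ => hk i
  by_contra hcon
  have hnot : (fun i => θ * ks i) ∉ interior Q := fun h => hcon (interior_subset h)
  obtain ⟨L, hL⟩ := geometric_hahn_banach_open_point hconv.interior isOpen_interior hnot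
  set l : ι → ℝ := fun i => L (Pi.single i 1) with hl
  have hLl : ∀ k : ι → ℝ, L k = ∑ i, k i * l i := by
    intro k
    have h2 : k = ∑ i, k i • (Pi.single i (1 : ℝ) : ι → ℝ) := by
      ext i
      simp [Finset.sum_apply, Pi.single_apply]
    conv_lhs => rw [h2]
    rw [map_sum]
    exact Finset.sum_congr rfl fun i _ => by rw [map_smul, smul_eq_mul]
  set c : ℝ := ∑ i, θ * ks i * l i with hc
  have hLc : ∀ k ∈ interior Q, ∑ i, k i * l i < c := by
    intro k hk
    have := hL k hk
    rw [hLl, hLl] at this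
    exact this
  -- coordinates of `l` are nonnegative
  have hup : ∀ i : ι, ∀ s : ℝ, (∀ j, j ≠ i → True) → (fun j => if j = i then s else 0) ∈ interior Q →
      s * l i < c := by
    intro i s _ hm
    have := hLc _ hm
    rw [Finset.sum_eq_single i] at this
    · simpa using this
    · intro j _ hj; simp [hj]
    · intro hi; exact absurd (Finset.mem_univ i) hi
  have hl0 : ∀ i, 0 ≤ l i := by
    intro i
    by_contra hneg
    push Not at hneg
    have h3 : ∀ s : ℝ, s ≤ 0 → s * l i < c := by
      intro s hs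
      refine hup i s (fun _ _ => trivial) (hint _ fun j => ?_)
      split_ifs
      · linarith
      · exact ht
    have h4 := h3 (-(|c| / (-(l i)))) (neg_nonpos.mpr (div_nonneg (abs_nonneg _) (by linarith)))
    have h5 : -(|c| / (-(l i))) * l i = |c| := by
      have h6 : l i ≠ 0 := hneg.ne
      rw [div_neg, neg_neg, div_mul_cancel₀ _ h6]
    rw [h5] at h4
    exact absurd (le_abs_self c) (not_le.mpr h4)
  have hlI : ∀ i ∉ I, l i = 0 := by
    intro i hi
    by_contra hne
    have hpos : 0 < l i := lt_of_le_of_ne (hl0 i) (Ne.symm hne)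
    have h3 : ∀ s : ℝ, s * l i < c := by
      intro s
      refine hup i s (fun _ _ => trivial) ?_
      rw [mem_interior]
      refine ⟨Set.pi Set.univ fun j => if j = i then Set.univ else Set.Iio t, ?_, ?_, ?_⟩
      · intro k hk
        refine hI (fun j => if j = i then 0 else k j) ?_ k ?_
        · refine hdown _ hbox _ fun j => ?_
          dsimp only
          split_ifs with hj
          · exact ht.le
          · have := hk j (Set.mem_univ j)
            simp only [if_neg hj] at this
            exact le_of_lt this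
        · intro j hj
          have hji : j ≠ i := fun h => hi (h ▸ hj)
          rw [if_neg hji]
      · refine isOpen_set_pi Set.finite_univ fun j _ => ?_
        split_ifs
        · exact isOpen_univ
        · exact isOpen_Iio
      · intro j _
        dsimp only
        split_ifs
        · exact Set.mem_univ _
        · exact ht
    have h4 := h3 (|c| / l i)
    rw [div_mul_cancel₀ _ hpos.ne'] at h4
    exact absurd (le_abs_self c) (not_le.mpr h4)
  -- `l · k ≤ c` on all of `Q`
  have hQc : ∀ k ∈ Q, ∑ i, k i * l i ≤ c := by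
    intro k hk
    have h3 : ∀ s : ℝ, 0 ≤ s → s < 1 → s * ∑ i, k i * l i ≤ c := by
      intro s hs0 hs1
      have h4 : (fun i => s * k i) ∈ interior Q := by
        have h5 : (0 : ι → ℝ) ∈ interior Q := hint 0 fun _ => ht
        have h6 := hconv.combo_interior_self_mem_interior h5 hk (sub_pos.mpr hs1) hs0 (by ring)
        convert h6 using 1
        ext i
        simp
      have h7 := hLc _ h4
      rw [Finset.mul_sum]
      refine le_of_lt (lt_of_le_of_lt (le_of_eq ?_) h7)
      exact Finset.sum_congr rfl fun i _ => by ring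
    exact le_of_forall_mul_le h3
  have h8 := h l hl0 hlI c fun k hk _ => hQc k hk
  have h9 : c = θ * ∑ i, ks i * l i := by
    rw [hc, Finset.mul_sum]
    exact Finset.sum_congr rfl fun i _ => by ring
  have h10 : 0 ≤ ∑ i, ks i * l i := Finset.sum_nonneg fun i _ => mul_nonneg (hks i) (hl0 i)
  have h11 : ∑ i, ks i * l i ≤ 0 := by nlinarith
  have h12 : c ≤ 0 := by rw [h9]; exact mul_nonpos_of_nonneg_of_nonpos h0 h11
  have h13 := hLc 0 (hint 0 fun _ => ht)
  simp at h13
  linarith

end convexSet

section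

variable {K V R : Type*} [Field K] [AddCommGroup V] [Module K V] [CommRing R] [Algebra K R]
  {Hm : R → Prop} {P : Set (R →₀ ℝ)} {j : V →ₗ[K] R}

/-- **The exponent `k*`.** Let `b` be a basis of `V`, elements outside `Hz` units at the point.
If `k* ≥ 0` and `k* · l ≤ c` whenever `ofBasis b l` has slope `≤ c` (`l ≥ 0` zero outside `Hz`),
then `θ k*` is an integrable exponent for every `θ < 1`. -/
theorem kstar_mem (hP : IsExp Hm P) (hj : Function.Injective j)
    (hK : ∀ c : K, Hm (algebraMap K R c)) (hV : ∀ v, Hm (j v)) {Hz : Submodule K V}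
    (hunit : ∀ v, v ∉ Hz → IsUnitAt P (j v)) {ι : Type*} [Fintype ι] (b : Basis ι K V)
    {ks : ι → ℝ} (hks : ∀ i, 0 ≤ ks i)
    (h : ∀ l : ι → ℝ, (∀ i, 0 ≤ l i) → (∀ i, b i ∉ Hz → l i = 0) → ∀ c : ℝ,
      VSl P j (ofBasis b l).w c → ∑ i, ks i * l i ≤ c)
    {θ : ℝ} (h0 : 0 ≤ θ) (h1 : θ < 1) : ∑ i, single (j (b i)) (θ * ks i) ∈ P := by
  classical
  set Q : Set (ι → ℝ) := {k | ∑ i, single (j (b i)) (k i) ∈ P} with hQ
  have hjb : Function.Injective fun i => j (b i) := hj.comp b.injective
  have happ : ∀ (k : ι → ℝ) (i : ι), (∑ i, single (j (b i)) (k i)) (j (b i)) = k i := by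
    intro k i
    rw [Finsupp.finsetSum_apply, Finset.sum_eq_single i]
    · simp
    · intro i' _ hi'
      rw [single_apply, if_neg fun h => hi' (hjb h)]
    · simp
  have happ0 : ∀ (k : ι → ℝ) (f : R), f ∉ Set.range (fun i => j (b i)) →
      (∑ i, single (j (b i)) (k i)) f = 0 := by
    intro k f hf
    rw [Finsupp.finsetSum_apply]
    refine Finset.sum_eq_zero fun i _ => ?_
    rw [single_apply, if_neg fun h => hf ⟨i, h⟩]
  have hne : ∀ i, j (b i) ≠ 0 := fun i => j_ne_zero hj (b.ne_zero i)
  have hsupp : ∀ (k : ι → ℝ), ∀ f ∈ (∑ i, single (j (b i)) (k i)).support, Hm f ∧ f ≠ 0 := by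
    intro k f hf
    by_cases hfr : f ∈ Set.range (fun i => j (b i))
    · obtain ⟨i, rfl⟩ := hfr
      exact ⟨hV _, hne i⟩
    · exact absurd (happ0 k f hfr) (Finsupp.mem_support_iff.mp hf)
  have hconv : Convex ℝ Q := by
    intro k hk k' hk' u v hu hv huv
    have h2 := hP.convex hk hk' hu hv huv
    have h3 : ∑ i, single (j (b i)) ((u • k + v • k') i) =
        u • ∑ i, single (j (b i)) (k i) + v • ∑ i, single (j (b i)) (k' i) := by
      rw [Finset.smul_sum, Finset.smul_sum, ← Finset.sum_add_distrib]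
      refine Finset.sum_congr rfl fun i _ => ?_
      rw [Finsupp.smul_single, Finsupp.smul_single, ← single_add]
      rfl
    change ∑ i, single (j (b i)) ((u • k + v • k') i) ∈ P
    rw [h3]
    exact h2
  have hdown : ∀ k ∈ Q, ∀ k' : ι → ℝ, k' ≤ k → k' ∈ Q := by
    intro k hk k' hle
    refine hP.down _ hk _ (hsupp k') fun f => ?_
    by_cases hfr : f ∈ Set.range (fun i => j (b i))
    · obtain ⟨i, rfl⟩ := hfr
      rw [happ, happ]
      exact hle i
    · rw [happ0 _ _ hfr, happ0 _ _ hfr]
  obtain ⟨t, ht, hbox⟩ : ∃ t : ℝ, 0 < t ∧ (fun _ => t : ι → ℝ) ∈ Q := by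
    obtain ⟨t, ht, h2⟩ := hP.exists_box (Finset.univ.image fun i => j (b i)) (by
      intro f hf
      obtain ⟨i, -, rfl⟩ := Finset.mem_image.mp hf
      exact ⟨hV _, hne i⟩)
    refine ⟨t, ht, ?_⟩
    rw [Finset.sum_image fun i _ i' _ hii' => hjb hii'] at h2
    exact h2
  have hI : ∀ k ∈ Q, ∀ k' : ι → ℝ, (∀ i ∈ {i | b i ∈ Hz}, k' i = k i) → k' ∈ Q := by
    intro k hk k' hkk'
    have key : ∀ s : Finset ι, (∀ i ∈ s, b i ∉ Hz) →
        (∑ i, single (j (b i)) (k i)) + ∑ i ∈ s, single (j (b i)) (k' i - k i) ∈ P := by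
      intro s
      induction s using Finset.induction_on with
      | empty =>
        intro _
        rw [Finset.sum_empty, add_zero]
        exact hk
      | insert i s hi ih =>
        intro hs
        rw [Finset.sum_insert hi, add_comm (single _ _), ← add_assoc]
        exact hunit _ (hs i (Finset.mem_insert_self _ _)) _ _
          (ih fun i' hi' => hs i' (Finset.mem_insert_of_mem hi'))
    have h2 := key (Finset.univ.filter fun i => b i ∉ Hz) (by simp)
    have h3 : (∑ i, single (j (b i)) (k i)) +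
        ∑ i ∈ Finset.univ.filter (fun i => b i ∉ Hz), single (j (b i)) (k' i - k i) =
        ∑ i, single (j (b i)) (k' i) := by
      rw [Finset.sum_filter, ← Finset.sum_add_distrib]
      refine Finset.sum_congr rfl fun i _ => ?_
      split_ifs with hi
      · rw [add_zero, hkk' i hi]
      · rw [← single_add]; congr 1; ring
    rw [h3] at h2
    exact h2
  refine mem_of_support hconv hdown ht hbox hI hks ?_ h0 h1
  intro l hl hlI c hc
  refine h l hl (fun i hi => hlI i hi) c ?_
  refine vsl_of_basis hP hj hK hV (F := ofBasis b l)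
    (fun v hv => (le_ofBasis_iff b l hv).mpr fun i _ => hl i) (ofBasis_adapted b l) ?_
  intro κ hκ hm
  simp_rw [ofBasis_basis]
  exact hc κ hm hκ

end

end Vale.Agent.P271.Exp
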