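import Vale.Agent.P271.H604.OnWt

/-!
# P271 / APKG : exponent sets at all points

`ExpSys R Hm X`: the ring `R` (allowed elements `Hm`), the space of points `X` and the exponent set
`P x` of every point, with the properties (A1)-(A7) and (A9) of the note [EXP].
-/

namespace Vale.Agent.P271.Exp

open Finsupp Module Filter Topology Vale.Agent.P271.Filt Vale.Agent.P271.Filt.Wt

/-- Exponent sets at all points of `X`. -/
structure ExpSys (R : Type*) [CommRing R] [Algebra ℂ R] (Hm : R → Prop) (X : Type*)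
    [TopologicalSpace X] where
  /-- evaluation at a point -/
  ev : X → R →ₐ[ℂ] ℂ
  /-- the exponent set: all `k` with `∏ |f|^{-2 k f}` integrable near the point -/
  P : X → Set (R →₀ ℝ)
  hm_algebraMap : ∀ c : ℂ, Hm (algebraMap ℂ R c)
  /-- (A1)-(A5) -/
  isExp : ∀ x, IsExp Hm (P x)
  /-- (A6) -/
  unit : ∀ x f, Hm f → ev x f ≠ 0 → IsUnitAt (P x) f
  /-- (A7) -/
  nonint : ∀ x f (κ : ℝ), Hm f → ev x f = 0 → single f κ ∈ P x → κ < 1
  /-- (A9) lower semicontinuity in the point and the functions, for families in a finite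
  dimensional space `V` of allowed elements -/
  lsc : ∀ (V : Submodule ℂ R), FiniteDimensional ℂ V → (∀ v ∈ V, Hm v) →
    ∀ {ι : Type} [Fintype ι] (b : ℕ → ι → V) (b' : ι → V) (x : ℕ → X) (x' : X) (κ : ι → ℝ),
    (∀ i, 0 ≤ κ i) → ∑ i, single (b' i : R) (κ i) ∈ P x' →
    (∀ (f : V →ₗ[ℂ] ℂ) (i : ι), Tendsto (fun n => f (b n i)) atTop (𝓝 (f (b' i)))) →
    Tendsto x atTop (𝓝 x') → ∀ θ : ℝ, 0 ≤ θ → θ < 1 →
    ∀ᶠ n in atTop, ∑ i, single (b n i : R) (θ * κ i) ∈ P (x n)

namespace ExpSys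

variable {R : Type*} [CommRing R] [Algebra ℂ R] {Hm : R → Prop} {X : Type*} [TopologicalSpace X]
  (E : ExpSys R Hm X)

/-- The slope functional of the point `x` on filtrations of `V`. -/
noncomputable def a (x : X) (V : Submodule ℂ R) (F : Wt ℂ V) : ℝ := vslope (E.P x) V.subtype F.w

/-- The sections that vanish at `x`. -/
def Hz (x : X) (V : Submodule ℂ R) : Submodule ℂ V :=
  (LinearMap.ker (E.ev x).toLinearMap).comap V.subtype

theorem mem_Hz {x : X} {V : Submodule ℂ R} {v : V} : v ∈ E.Hz x V ↔ E.ev x (v : R) = 0 := by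
  simp [Hz]

/-- **Limits.** If the bases `b n` converge to the basis `b'` and the points `x n` to `x'`, then a
bound for the slopes of the filtrations `ofBasis (b n) lam` at `x n` passes to the limit. -/
theorem vsl_limit {V : Submodule ℂ R} [FiniteDimensional ℂ V] (hV : ∀ v ∈ V, Hm v)
    {ι : Type} [Fintype ι] (F : ℕ → Wt ℂ V) (b : ℕ → Basis ι ℂ V) (b' : Basis ι ℂ V)
    (lam : ι → ℝ) (hlam : ∀ i, 0 ≤ lam i) (_hb : ∀ n, (F n).Adapted (b n))
    (hw : ∀ n i, (F n).w (b n i) = lam i)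
    (hlim : ∀ (f : V →ₗ[ℂ] ℂ) (i : ι), Tendsto (fun n => f (b n i)) atTop (𝓝 (f (b' i))))
    {x : ℕ → X} {x' : X} (hx : Tendsto x atTop (𝓝 x')) {c : ℝ}
    (hc : ∃ᶠ n in atTop, VSl (E.P (x n)) V.subtype (F n).w c) :
    VSl (E.P x') V.subtype (ofBasis b' lam).w c := by
  classical
  have hj : Function.Injective V.subtype := Subtype.val_injective
  refine vsl_of_basis (E.isExp x') hj E.hm_algebraMap (fun v => hV v v.2) (F := ofBasis b' lam)
    (fun v hv => (le_ofBasis_iff b' lam hv).mpr fun i _ => hlam i) (ofBasis_adapted b' lam) ?_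
  intro κ hκ hm
  simp_rw [ofBasis_basis]
  refine le_of_forall_mul_le fun θ h0 h1 => ?_
  have h2 := E.lsc V inferInstance hV (fun n i => b n i) (fun i => b' i) x x' κ hκ hm hlim hx θ h0
    h1
  obtain ⟨n, h3, h4⟩ := (hc.and_eventually h2).exists
  have h5 := h3.basis (b n) (κ := fun i => θ * κ i) (fun i => mul_nonneg h0 (hκ i)) h4
  simp_rw [hw] at h5
  rw [Finset.mul_sum]
  refine le_trans (le_of_eq (Finset.sum_congr rfl fun i _ => ?_)) h5
  ring

theorem scalar_single {x : X} {f : R} (hf : Hm f) (hf0 : f ≠ 0) {c : ℂ} (hc : c ≠ 0) {t : ℝ} :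
    single (algebraMap ℂ R c * f) t ∈ E.P x ↔ single f t ∈ E.P x := by
  classical
  have hev : E.ev x (algebraMap ℂ R c) ≠ 0 := by
    rw [AlgHom.commutes]; simpa using hc
  have hc0 : algebraMap ℂ R c ≠ 0 := by
    intro h; rw [h, map_zero] at hev; exact hev rfl
  have hmc := E.hm_algebraMap c
  have h1 := (E.isExp x).mul 0 (algebraMap ℂ R c) f t hmc hf hc0 hf0
  rw [zero_add, zero_add] at h1
  rw [h1]
  constructor
  · intro h
    have h2 := E.unit x _ hmc hev _ (-t) h
    have h3 : single (algebraMap ℂ R c) t + single f t + single (algebraMap ℂ R c) (-t) =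
        single f t := by
      rw [add_right_comm, ← single_add, add_neg_cancel, single_zero, zero_add]
    rwa [h3] at h2
  · intro h
    have h2 := E.unit x _ hmc hev _ t h
    rwa [add_comm] at h2

/-- Uniform positivity of the exponents of the nonzero elements of a finite dimensional space. -/
theorem exists_uniform_pos {V : Submodule ℂ R} [FiniteDimensional ℂ V] (hV : ∀ v ∈ V, Hm v)
    (x : X) : ∃ t : ℝ, 0 < t ∧ ∀ v : V, v ≠ 0 → single (v : R) t ∈ E.P x := by
  classical
  by_contra hcon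
  push Not at hcon
  set N := finrank ℂ V with hN
  let e : EuclideanSpace ℂ (Fin N) ≃ₗ[ℂ] V :=
    LinearEquiv.ofFinrankEq _ _ (by rw [finrank_euclideanSpace_fin])
  have h1 : ∀ n : ℕ, ∃ u : EuclideanSpace ℂ (Fin N), ‖u‖ = 1 ∧
      single ((e u : V) : R) (1 / ((n : ℝ) + 1)) ∉ E.P x := by
    intro n
    obtain ⟨v, hv, hvP⟩ := hcon (1 / ((n : ℝ) + 1)) (by positivity)
    set u := e.symm v with hu
    have hu0 : u ≠ 0 := by rw [hu]; simpa using hv
    have hn0 : (‖u‖ : ℝ) ≠ 0 := norm_ne_zero_iff.mpr hu0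
    refine ⟨((‖u‖ : ℂ)⁻¹) • u, ?_, ?_⟩
    · rw [norm_smul, norm_inv, Complex.norm_real, norm_norm, inv_mul_cancel₀ hn0]
    · intro h
      apply hvP
      have h2 : ((e ((‖u‖ : ℂ)⁻¹ • u) : V) : R) = algebraMap ℂ R ((‖u‖ : ℂ)⁻¹) * (v : R) := by
        rw [map_smul, Submodule.coe_smul, Algebra.smul_def, hu, LinearEquiv.apply_symm_apply]
      rw [h2, E.scalar_single (hV v v.2) (by simpa using hv)
        (inv_ne_zero (by exact_mod_cast hn0))] at h
      exact h
  choose u hu1 hu2 using h1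
  obtain ⟨u', hu', φ, hφ, hlim⟩ := (isCompact_sphere (0 : EuclideanSpace ℂ (Fin N)) 1).tendsto_subseq
    (fun n => by rw [mem_sphere_zero_iff_norm]; exact hu1 n : ∀ n, u n ∈ Metric.sphere 0 1)
  have hu'0 : u' ≠ 0 := by
    rintro rfl
    rw [mem_sphere_zero_iff_norm, norm_zero] at hu'
    exact zero_ne_one hu'
  have hv' : (e u' : V) ≠ 0 := by simpa using hu'0
  obtain ⟨t, ht, htP⟩ := (E.isExp x).pos ((e u' : V) : R) (hV _ (e u').2) (by simpa using hv')
  have h3 := E.lsc V inferInstance hV (ι := Unit) (fun n _ => e (u (φ n))) (fun _ => e u')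
    (fun _ => x) x (fun _ => t) (fun _ => ht.le) (by simpa using htP)
    (fun f _ => by
      have hcont : Continuous (f.comp e.toLinearMap) := LinearMap.continuous_of_finiteDimensional _
      exact (hcont.tendsto u').comp hlim)
    tendsto_const_nhds (1 / 2) (by norm_num) (by norm_num)
  have h4 : ∀ᶠ n in atTop, 1 / (((φ n : ℕ) : ℝ) + 1) < 1 / 2 * t := by
    have h5 : Tendsto (fun n : ℕ => 1 / (((φ n : ℕ) : ℝ) + 1)) atTop (𝓝 0) :=
      tendsto_one_div_add_atTop_nhds_zero_nat.comp hφ.tendsto_atTop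
    exact h5.eventually_lt_const (by positivity)
  obtain ⟨n, h6, h7⟩ := (h3.and h4).exists
  simp only [Finset.univ_unique, Finset.sum_singleton] at h6
  exact hu2 (φ n) ((E.isExp x).single_mem h6 (by positivity) h7.le)

end ExpSys

end Vale.Agent.P271.Exp
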